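import Mathlib.LinearAlgebra.Dual.Lemmas
import Mathlib.LinearAlgebra.Matrix.Determinant.Basic
import Mathlib.LinearAlgebra.Matrix.Basis
import Mathlib.LinearAlgebra.Multilinear.Basic
import Mathlib.LinearAlgebra.FiniteDimensional.Lemmas
import Mathlib.LinearAlgebra.Matrix.NonsingularInverse
import Mathlib.LinearAlgebra.Multilinear.FiniteDimensional

/-!
# The determinant trick

`exists_frequent_basis`: from infinitely many nonzero vectors `τ k` of a finite dimensional space
one can choose a basis `u_a = τ (κ a)` of their span and an index `i` such that for infinitely many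
`k` the `i`-th coordinate of `τ k` is nonzero. `detTen u` is the determinant of the values of
multilinear functions `u_1, …, u_r`; replacing `u_i` by `τ k` multiplies it by this coordinate.
-/

open Matrix Module

namespace Vale.Agent.P299.G

section Core

variable {K V : Type*} [Field K] [AddCommGroup V] [Module K V] [FiniteDimensional K V]

/-- A basis of the span of a sequence of vectors, taken from the sequence, and an index `i` such
that infinitely many members of the sequence have nonzero `i`-th coordinate. -/
theorem exists_frequent_basis (τ : ℕ → V) (h : ∀ N, ∃ k, N ≤ k ∧ τ k ≠ 0) :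
    ∃ (r : ℕ) (κ : Fin r → ℕ) (i : Fin r), LinearIndependent K (fun a => τ (κ a)) ∧
      ∀ N, ∃ k, N ≤ k ∧ ∃ c : Fin r → K, c i ≠ 0 ∧ τ k = ∑ a, c a • τ (κ a) := by
  classical
  obtain ⟨b, hb1, hb2, hb3⟩ := exists_linearIndependent K (Set.range τ)
  have hfin : b.Finite := hb3.setFinite
  have : Fintype b := hfin.fintype
  let e : Fin (Fintype.card b) ≃ b := (Fintype.equivFin b).symm
  have hκ : ∀ a : Fin (Fintype.card b), ∃ k, τ k = (e a : V) := fun a => hb1 (e a).2
  choose κ hκ using hκ
  have hli : LinearIndependent K (fun a => τ (κ a)) := by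
    have h1 : (fun a => τ (κ a)) = (fun x : b => (x : V)) ∘ e := by
      funext a; exact hκ a
    rw [h1]
    exact hb3.comp e e.injective
  have hspan : ∀ k, ∃ c : Fin (Fintype.card b) → K, τ k = ∑ a, c a • τ (κ a) := by
    intro k
    have h1 : τ k ∈ Submodule.span K b := by
      rw [hb2]; exact Submodule.subset_span ⟨k, rfl⟩
    have h2 : b = Set.range (fun a => τ (κ a)) := by
      ext x
      constructor
      · intro hx
        exact ⟨e.symm ⟨x, hx⟩, by rw [show (fun a => τ (κ a)) (e.symm ⟨x, hx⟩) =
          (e (e.symm ⟨x, hx⟩) : V) from hκ _]; simp⟩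
      · rintro ⟨a, rfl⟩
        rw [show (fun a => τ (κ a)) a = (e a : V) from hκ a]
        exact (e a).2
    rw [h2] at h1
    obtain ⟨c, hc⟩ := (Submodule.mem_span_range_iff_exists_fun K).1 h1
    exact ⟨c, hc.symm⟩
  by_contra hcon
  push Not at hcon
  have h3 : ∀ i, ∃ N, ∀ k, N ≤ k → ∀ c : Fin (Fintype.card b) → K, c i ≠ 0 →
      τ k ≠ ∑ a, c a • τ (κ a) := fun i => hcon _ κ i hli
  choose N hN using h3
  obtain ⟨k, hk, hk0⟩ := h (∑ i, N i)
  obtain ⟨c, hc⟩ := hspan k
  have h4 : ∃ i, c i ≠ 0 := by
    by_contra hall
    push Not at hall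
    apply hk0
    rw [hc]
    exact Finset.sum_eq_zero fun a _ => by rw [hall a, zero_smul]
  obtain ⟨i, hi⟩ := h4
  exact hN i k ((Finset.single_le_sum (f := N) (fun _ _ => Nat.zero_le _)
    (Finset.mem_univ i)).trans hk) c hi hc

end Core

section DetTen

variable {K D : Type*} [CommRing K] [AddCommGroup D] [Module K D]

/-- The matrix of the values of the multilinear functions `u_a` on the `r` blocks of `v`. -/
def valMat {r p : ℕ} (u : Fin r → MultilinearMap K (fun _ : Fin p => D) K)
    (v : Fin (r * p) → D) : Matrix (Fin r) (Fin r) K :=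
  Matrix.of fun a b => u a (fun j => v (finProdFinEquiv (b, j)))

theorem valMat_update {r p : ℕ} (u : Fin r → MultilinearMap K (fun _ : Fin p => D) K)
    [DecidableEq (Fin (r * p))] (v : Fin (r * p) → D) (i : Fin (r * p)) (x : D) :
    valMat u (Function.update v i x) =
      (valMat u v).updateCol (finProdFinEquiv.symm i).1 (fun a => u a
        (Function.update (fun j => v (finProdFinEquiv ((finProdFinEquiv.symm i).1, j)))
          (finProdFinEquiv.symm i).2 x)) := by
  ext a b
  rw [Matrix.updateCol_apply]
  split_ifs with h
  · subst h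
    simp only [valMat, Matrix.of_apply]
    congr 1
    funext j
    by_cases hj : j = (finProdFinEquiv.symm i).2
    · subst hj
      rw [Function.update_self, Prod.mk.eta, Equiv.apply_symm_apply, Function.update_self]
    · rw [Function.update_of_ne hj, Function.update_of_ne]
      intro h1
      apply hj
      rw [← h1]; simp
  · simp only [valMat, Matrix.of_apply]
    congr 1
    funext j
    rw [Function.update_of_ne]
    intro h1
    apply h
    rw [← h1]; simp

/-- The determinant of the values of multilinear functions `u_1, …, u_r` of `p` variables, as a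
multilinear function of `r p` variables. -/
def detTen {r p : ℕ} (u : Fin r → MultilinearMap K (fun _ : Fin p => D) K) :
    MultilinearMap K (fun _ : Fin (r * p) => D) K where
  toFun v := (valMat u v).det
  map_update_add' v i x y := by
    rw [valMat_update, valMat_update, valMat_update, ← Matrix.det_updateCol_add]
    congr 2
    funext a
    simp only [Pi.add_apply]
    exact (u a).map_update_add _ _ _ _
  map_update_smul' v i c x := by
    rw [valMat_update, valMat_update, smul_eq_mul, ← Matrix.det_updateCol_smul]
    congr 2
    funext a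
    simp only [Pi.smul_apply]
    exact (u a).map_update_smul _ _ _ _

theorem detTen_apply {r p : ℕ} (u : Fin r → MultilinearMap K (fun _ : Fin p => D) K)
    (v : Fin (r * p) → D) :
    detTen u v = (Matrix.of fun a b => u a (fun j => v (finProdFinEquiv (b, j)))).det := rfl

/-- Replacing `u_i` by a linear combination of the `u_a` multiplies the determinant by the `i`-th
coefficient. -/
theorem detTen_update_sum {r p : ℕ} (u : Fin r → MultilinearMap K (fun _ : Fin p => D) K)
    (i : Fin r) (c : Fin r → K) :
    detTen (Function.update u i (∑ a, c a • u a)) = c i • detTen u := by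
  ext v
  rw [_root_.smul_apply]
  have h : valMat (Function.update u i (∑ a, c a • u a)) v =
      (valMat u v).updateRow i (∑ k, (c k) • (valMat u v) k) := by
    ext a b
    rw [Matrix.updateRow_apply]
    split_ifs with ha
    · subst ha
      simp only [valMat, Matrix.of_apply, Function.update_self, _root_.sum_apply,
        _root_.smul_apply, Finset.sum_apply, Pi.smul_apply]
    · simp only [valMat, Matrix.of_apply]
      rw [Function.update_of_ne ha]
  change (valMat (Function.update u i (∑ a, c a • u a)) v).det = c i • (valMat u v).det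
  rw [h, Matrix.det_updateRow_sum]

end DetTen

section Field

variable {K D : Type*} [Field K] [AddCommGroup D] [Module K D]

/-- Linearly independent multilinear functions have a nonzero determinant. -/
theorem detTen_ne_zero {r p : ℕ} (u : Fin r → MultilinearMap K (fun _ : Fin p => D) K)
    (hu : LinearIndependent K u) : detTen u ≠ 0 := by
  classical
  -- the vectors of values
  have h1 : LinearIndependent K (fun a (w : Fin p → D) => u a w) := by
    rw [Fintype.linearIndependent_iff] at hu ⊢
    intro g hg i
    apply hu g
    ext w
    have := congrFun hg w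
    simpa [_root_.sum_apply] using this
  have h2 := span_flip_eq_top_iff_linearIndependent.2 h1
  obtain ⟨b, hb1, hb2, hb3⟩ := exists_linearIndependent K
    (Set.range (flip fun a (w : Fin p → D) => u a w))
  rw [h2] at hb2
  have hfin : b.Finite := hb3.setFinite
  have : Fintype b := hfin.fintype
  let B : Basis b K (Fin r → K) := Basis.mk hb3 (by rw [Subtype.range_coe]; exact hb2.ge)
  have hcard : Fintype.card b = Fintype.card (Fin r) := by
    have e1 := Module.finrank_eq_card_basis B
    rw [Module.finrank_fintype_fun_eq_card] at e1
    exact e1.symm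
  let e : Fin r ≃ b := (Fintype.equivOfCardEq hcard).symm
  have hw : ∀ a : Fin r, ∃ w : Fin p → D, (fun i => u i w) = (e a : Fin r → K) :=
    fun a => hb1 (e a).2
  choose w hw using hw
  have hli : LinearIndependent K (fun a => (fun i => u i (w a) : Fin r → K)) := by
    have h3 : (fun a => (fun i => u i (w a) : Fin r → K)) = (fun x : b => (x : Fin r → K)) ∘ e := by
      funext a; exact hw a
    rw [h3]
    exact hb3.comp e e.injective
  intro h0
  have h4 := congrArg (fun t => t (fun q => w (finProdFinEquiv.symm q).1
    (finProdFinEquiv.symm q).2)) h0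
  simp only [detTen_apply, Equiv.symm_apply_apply, _root_.zero_apply] at h4
  have h5 : (Matrix.of fun a b : Fin r => u a (fun j => w b j)) =
      (Matrix.of fun b a : Fin r => u a (w b))ᵀ := by
    ext a b; rfl
  rw [h5, Matrix.det_transpose] at h4
  have h6 : IsUnit (Matrix.of fun b a : Fin r => u a (w b)) := by
    rw [← Matrix.linearIndependent_rows_iff_isUnit]
    exact hli
  rw [Matrix.isUnit_iff_isUnit_det, h4] at h6
  exact not_isUnit_zero h6

/-- **The determinant trick.** From infinitely many nonzero multilinear functions `τ k` one gets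
one nonzero determinant `e` of `r` of them such that for infinitely many `k` the determinant with
the `i`-th function replaced by `τ k` is a nonzero multiple of `e`. -/
theorem det_trick [FiniteDimensional K D] {p : ℕ}
    (τ : ℕ → MultilinearMap K (fun _ : Fin p => D) K) (h : ∀ N, ∃ k, N ≤ k ∧ τ k ≠ 0) :
    ∃ (r : ℕ) (κ : Fin r → ℕ) (i : Fin r), LinearIndependent K (fun a => τ (κ a)) ∧
      detTen (fun a => τ (κ a)) ≠ 0 ∧
      ∀ N, ∃ k, N ≤ k ∧ ∃ c : Fin r → K, c i ≠ 0 ∧ τ k = ∑ a, c a • τ (κ a) ∧
        detTen (Function.update (fun a => τ (κ a)) i (τ k)) =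
          c i • detTen (fun a => τ (κ a)) := by
  obtain ⟨r, κ, i, h1, h2⟩ := exists_frequent_basis (K := K) τ h
  refine ⟨r, κ, i, h1, detTen_ne_zero _ h1, fun N => ?_⟩
  obtain ⟨k, hk, c, hc, hτ⟩ := h2 N
  refine ⟨k, hk, c, hc, hτ, ?_⟩
  rw [hτ, detTen_update_sum]

end Field

end Vale.Agent.P299.G
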