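import Mathlib.AlgebraicGeometry.OrderOfVanishing
import Mathlib.Topology.NoetherianSpace
import Mathlib.AlgebraicGeometry.Noetherian

/-!
# The divisor of a rational function on a Noetherian integral scheme is finite
-/

open AlgebraicGeometry Order TopologicalSpace CategoryTheory

universe u

namespace Vale.Agent.P299.G

variable {X : Scheme.{u}} [IsIntegral X]

/-- In an irreducible Noetherian scheme a proper closed subset contains only finitely many points
of codimension one. -/
theorem finite_codim_one [IsNoetherian X] (Z : Set X) (hZ : IsClosed Z)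
    (hne : genericPoint X ∉ Z) : {x : X | x ∈ Z ∧ coheight x = 1}.Finite := by
  obtain ⟨S, hSf, hS, hSZ⟩ := NoetherianSpace.exists_finite_set_isClosed_irreducible hZ
  -- every such point is the generic point of a member of `S`
  have key : {x : X | x ∈ Z ∧ coheight x = 1} ⊆
      ⋃ t ∈ S, {x : X | closure {x} = t} := by
    rintro x ⟨hxZ, hx⟩
    rw [hSZ.2] at hxZ
    obtain ⟨t, htS, hxt⟩ := Set.mem_sUnion.1 hxZ
    obtain ⟨w, hw⟩ := QuasiSober.sober (hSZ.1 t htS) (hS t htS)
    refine Set.mem_iUnion₂.2 ⟨t, htS, ?_⟩
    have hwx : w ⤳ x := hw.specializes hxt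
    have hle : x ≤ w := hwx
    by_cases hxw : w ≤ x
    · have : x ⤳ w := hxw
      have hcl : closure {x} = closure {w} := inseparable_iff_closure_eq.1 (this.antisymm hwx)
      change closure {x} = t
      rw [hcl]
      exact hw
    · exfalso
      have hlt : x < w := lt_of_le_not_ge hle hxw
      have hwZ : w ∈ Z := by
        rw [hSZ.2]
        exact Set.mem_sUnion.2 ⟨t, htS, hw.mem⟩
      have hη : genericPoint X ⤳ w := genericPoint_specializes w
      have hle2 : w ≤ genericPoint X := hη
      have hlt2 : w < genericPoint X := by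
        refine lt_of_le_not_ge hle2 fun h => hne ?_
        have : w ⤳ genericPoint X := h
        exact this.mem_closed hZ hwZ
      have h1 : (1 : ℕ∞) ≤ coheight w := by
        rw [Order.one_le_iff_ne_zero]
        intro h0
        rw [coheight_eq_zero] at h0
        exact absurd (h0 hle2) (not_le_of_gt hlt2)
      have h2 := coheight_add_one_le hlt
      rw [hx] at h2
      have h3 : (1 : ℕ∞) + 1 ≤ 1 := (add_le_add_left h1 1).trans h2
      exact absurd h3 (by decide)
  refine (hSf.biUnion fun t _ => ?_).subset key
  refine Set.Subsingleton.finite ?_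
  intro a ha b hb
  have : closure {a} = closure {b} := (show closure {a} = t from ha).trans
    (show closure {b} = t from hb).symm
  exact (inseparable_iff_closure_eq.2 this).eq

theorem finite_ord_ne_zero [IsNoetherian X] (f : X.functionField) (hf : f ≠ 0) :
    {x : X | Scheme.ord f x ≠ 0}.Finite := by
  obtain ⟨U, _, f', hU, rfl, hu⟩ := AlgebraicGeometry.exists_isUnit_germ_eq X f hf
  have hg : genericPoint X ∈ U :=
    ((genericPoint_spec X).mem_open_set_iff U.isOpen).mpr (by simpa using hU)
  refine (finite_codim_one (X := X) ((U : Set X)ᶜ) U.isOpen.isClosed_compl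
    (by simpa using hg)).subset ?_
  intro x hx
  refine ⟨?_, ?_⟩
  · intro hxU
    exact hx (Scheme.ord_of_isUnit hu hxU)
  · by_contra hc
    exact hx (Scheme.ord_eq_zero_of_coheight_neq_one hc _)

end Vale.Agent.P299.G
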