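import Mathlib.AlgebraicGeometry.OrderOfVanishing
import Mathlib.AlgebraicGeometry.Stalk
import Mathlib.RingTheory.Localization.NumDen
import Vale.Agent.P299.G.Scheme

/-!
# Local equations of divisors on locally factorial schemes
-/

open AlgebraicGeometry Order TopologicalSpace CategoryTheory IsLocalRing

universe u

namespace Vale.Agent.P299.G

variable {X : Scheme.{u}} [IsIntegral X]

/-- The embedding of a local ring in the function field. -/
noncomputable abbrev toK (x : X) : X.presheaf.stalk x →+* X.functionField :=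
  algebraMap (X.presheaf.stalk x) X.functionField

lemma toK_injective (x : X) : Function.Injective (toK x) :=
  IsFractionRing.injective (X.presheaf.stalk x) (X.functionField)

/-- The restriction from the local ring at `x` to the local ring at a generization. -/
noncomputable abbrev toStalk {y x : X} (h : y ⤳ x) :
    X.presheaf.stalk x →+* X.presheaf.stalk y :=
  (X.presheaf.stalkSpecializes h).hom

lemma toK_toStalk {y x : X} (h : y ⤳ x) (a : X.presheaf.stalk x) :
    toK y (toStalk h a) = toK x a := by
  have h1 : toK y = (X.presheaf.stalkSpecializes ((genericPoint_spec X).specializes trivial)).hom :=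
    rfl
  have h2 : toK x = (X.presheaf.stalkSpecializes ((genericPoint_spec X).specializes trivial)).hom :=
    rfl
  rw [h1, h2]
  simp [toStalk, ← CommRingCat.comp_apply]

lemma toStalk_injective {y x : X} (h : y ⤳ x) : Function.Injective (toStalk h) := by
  intro a b hab
  apply toK_injective x
  rw [← toK_toStalk h, ← toK_toStalk h, hab]

lemma toStalk_toStalk {z y x : X} (h : z ⤳ y) (h' : y ⤳ x) (a : X.presheaf.stalk x) :
    toStalk h (toStalk h' a) = toStalk (h.trans h') a := by
  apply toK_injective z
  rw [toK_toStalk, toK_toStalk, toK_toStalk]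

/-- Elements of the local ring at a generization are fractions. -/
lemma exists_frac {y x : X} (h : y ⤳ x) (t : X.presheaf.stalk y) :
    ∃ a b : X.presheaf.stalk x, IsUnit (toStalk h b) ∧ t * toStalk h b = toStalk h a := by
  obtain ⟨_, ⟨V, hV, rfl⟩, hxV, -⟩ :=
    X.isBasis_affineOpens.exists_subset_of_mem_open (Set.mem_univ x) isOpen_univ
  have hyV : y ∈ V := h.mem_open V.isOpen hxV
  have := hV.isLocalization_stalk ⟨y, hyV⟩
  let _ := TopCat.Presheaf.algebra_section_stalk X.presheaf (U := V) ⟨y, hyV⟩
  obtain ⟨⟨a, b⟩, hab⟩ := IsLocalization.surj (hV.primeIdealOf ⟨y, hyV⟩).asIdeal.primeCompl t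
  refine ⟨X.presheaf.germ V x hxV a, X.presheaf.germ V x hxV b, ?_, ?_⟩
  · have h1 := IsLocalization.map_units (X.presheaf.stalk y) b
    have h2 : toStalk h (X.presheaf.germ V x hxV b.1) = X.presheaf.germ V y hyV b.1 := by
      simp [toStalk, ← CommRingCat.comp_apply]
    rw [h2]
    exact h1
  · have h2 : toStalk h (X.presheaf.germ V x hxV b.1) = X.presheaf.germ V y hyV b.1 := by
      simp [toStalk, ← CommRingCat.comp_apply]
    have h3 : toStalk h (X.presheaf.germ V x hxV a) = X.presheaf.germ V y hyV a := by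
      simp [toStalk, ← CommRingCat.comp_apply]
    rw [h2, h3]
    exact hab

/-- The prime of the local ring at `x` attached to a generization. -/
noncomputable def primeAt {y x : X} (h : y ⤳ x) : Ideal (X.presheaf.stalk x) :=
  Ideal.comap (toStalk h) (maximalIdeal (X.presheaf.stalk y))

instance {y x : X} (h : y ⤳ x) : (primeAt h).IsPrime := by
  unfold primeAt
  infer_instance

lemma mem_primeAt {y x : X} (h : y ⤳ x) (a : X.presheaf.stalk x) :
    a ∈ primeAt h ↔ ¬ IsUnit (toStalk h a) := by
  unfold primeAt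
  rw [Ideal.mem_comap]
  exact mem_maximalIdeal _

lemma fromSpecStalk_primeAt {y x : X} (h : y ⤳ x) :
    X.fromSpecStalk x ⟨primeAt h, inferInstance⟩ = y := by
  have h1 := Scheme.SpecMap_stalkSpecializes_fromSpecStalk (X := X) h
  have h2 := Scheme.fromSpecStalk_closedPoint (X := X) (x := y)
  rw [← h1] at h2
  exact h2

lemma eq_of_primeAt_eq {y y' x : X} (h : y ⤳ x) (h' : y' ⤳ x) (he : primeAt h = primeAt h') :
    y = y' := by
  rw [← fromSpecStalk_primeAt h, ← fromSpecStalk_primeAt h']
  congr 1
  exact PrimeSpectrum.ext he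

/-- Every prime of the local ring comes from a generization. -/
lemma exists_primeAt {x : X} (p : Ideal (X.presheaf.stalk x)) [hp : p.IsPrime] :
    ∃ y : X, ∃ h : y ⤳ x, primeAt h = p := by
  let q : Spec (X.presheaf.stalk x) := ⟨p, hp⟩
  have h : X.fromSpecStalk x q ⤳ x := by
    have : X.fromSpecStalk x q ∈ Set.range (X.fromSpecStalk x) := ⟨q, rfl⟩
    rw [Scheme.range_fromSpecStalk] at this
    exact this
  refine ⟨_, h, ?_⟩
  have h1 := fromSpecStalk_primeAt h
  have h2 : Function.Injective (X.fromSpecStalk x) :=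
    (X.fromSpecStalk x).isEmbedding.injective
  have h3 := h2 h1
  exact congrArg PrimeSpectrum.asIdeal h3


/-! ### Orders -/

section orders

variable [IsLocallyNoetherian X]

lemma ord_toK_nonneg {y : X} (a : X.presheaf.stalk y) : 0 ≤ Scheme.ord (toK y a) y := by
  by_cases hy : coheight y = 1
  · by_cases ha : a = 0
    · rw [ha, map_zero, Scheme.ord_zero]; simp
    have ha' : toK y a ≠ 0 := by
      rw [Ne, map_eq_zero_iff _ (toK_injective y)]
      exact ha
    rw [Scheme.le_ord_iff hy ha']
    have : Ring.KrullDimLE 1 (X.presheaf.stalk y) := krullDimLE_of_coheight_le hy.le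
    exact Ring.ordFrac_ge_one_of_ne_zero ha
  · rw [Scheme.ord_eq_zero_of_coheight_neq_one hy]

lemma ord_toK_of_isUnit {y : X} {a : X.presheaf.stalk y} (ha : IsUnit a) :
    Scheme.ord (toK y a) y = 0 := by
  obtain ⟨b, hab⟩ := ha.exists_right_inv
  have h1 := ord_toK_nonneg (y := y) a
  have h2 := ord_toK_nonneg (y := y) b
  have ha0 : toK y a ≠ 0 := by
    rw [Ne, map_eq_zero_iff _ (toK_injective y)]
    exact ha.ne_zero
  have hb0 : toK y b ≠ 0 := by
    rw [Ne, map_eq_zero_iff _ (toK_injective y)]
    rintro rfl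
    simp at hab
  have h3 : Scheme.ord (toK y a * toK y b) y = 0 := by
    rw [← map_mul, hab, map_one]
    have := Scheme.ord_mul (x := y) (one_ne_zero (α := X.functionField)) one_ne_zero
    rw [one_mul] at this
    linarith
  rw [Scheme.ord_mul ha0 hb0] at h3
  linarith

variable (hreg : ∀ y : X, coheight y = 1 → IsDiscreteValuationRing (X.presheaf.stalk y))

include hreg

lemma exists_uniformizer {y : X} (hy : coheight y = 1) :
    ∃ t : X.presheaf.stalk y, t ≠ 0 ∧ Scheme.ord (toK y t) y = 1 := by
  have := hreg y hy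
  obtain ⟨t, ht⟩ := IsDiscreteValuationRing.exists_irreducible (X.presheaf.stalk y)
  have ht' : toK y t ≠ 0 := by
    rw [Ne, map_eq_zero_iff _ (toK_injective y)]
    exact ht.ne_zero
  refine ⟨t, ht.ne_zero, ?_⟩
  rw [Scheme.ord_eq_iff hy ht']
  exact Ring.ordFrac_irreducible ht

lemma isUnit_of_ord_eq_zero {y : X} (hy : coheight y = 1) {a : X.presheaf.stalk y} (ha : a ≠ 0)
    (h : Scheme.ord (toK y a) y = 0) : IsUnit a := by
  have := hreg y hy
  have ha' : toK y a ≠ 0 := by
    rw [Ne, map_eq_zero_iff _ (toK_injective y)]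
    exact ha
  rw [Scheme.ord_eq_iff hy ha'] at h
  rw [Ring.isUnit_iff_ordFrac_one_of_isDiscreteValuationRing (K := X.functionField)]
  exact h

/-- A rational function of nonnegative order lies in the local ring. -/
lemma exists_of_ord_nonneg {y : X} (hy : coheight y = 1) {f : X.functionField} (hf : f ≠ 0)
    (h : 0 ≤ Scheme.ord f y) : ∃ a : X.presheaf.stalk y, toK y a = f := by
  have := hreg y hy
  rw [Scheme.le_ord_iff hy hf] at h
  obtain ⟨a, b, hb, rfl⟩ := IsFractionRing.div_surjective (A := X.presheaf.stalk y) f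
  have hb0 : b ≠ 0 := nonZeroDivisors.ne_zero hb
  rcases ValuationRing.dvd_total b a with ⟨c, rfl⟩ | ⟨c, rfl⟩
  · refine ⟨c, ?_⟩
    rw [map_mul, mul_div_cancel_left₀]
    rwa [Ne, map_eq_zero_iff _ (toK_injective y)]
  · -- `f = 1 / c`, so that `c` has order at most zero
    have ha0 : a ≠ 0 := left_ne_zero_of_mul hb0
    have hc0 : c ≠ 0 := right_ne_zero_of_mul hb0
    have ha' : toK y a ≠ 0 := by rwa [Ne, map_eq_zero_iff _ (toK_injective y)]
    have hc' : toK y c ≠ 0 := by rwa [Ne, map_eq_zero_iff _ (toK_injective y)]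
    have hcf : toK y c * (toK y a / toK y (a * c)) = 1 := by
      rw [map_mul]
      field_simp
    have h1 : Scheme.ord (toK y c) y + Scheme.ord (toK y a / toK y (a * c)) y = 0 := by
      rw [← Scheme.ord_mul hc' hf, hcf]
      have := Scheme.ord_mul (x := y) (one_ne_zero (α := X.functionField)) one_ne_zero
      rw [one_mul] at this
      linarith
    have h2 := ord_toK_nonneg (y := y) c
    have h3 : 0 ≤ Scheme.ord (toK y a / toK y (a * c)) y := by
      rw [Scheme.le_ord_iff hy hf]
      exact h
    have hu : IsUnit c := isUnit_of_ord_eq_zero hreg hy hc0 (by linarith)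
    obtain ⟨d, hd⟩ := hu.exists_right_inv
    refine ⟨d, ?_⟩
    have hd' : toK y c * toK y d = 1 := by rw [← map_mul, hd, map_one]
    exact mul_left_cancel₀ hc' (hd'.trans hcf.symm)

end orders

/-! ### Factorial local rings -/

section factorial

variable [IsLocallyNoetherian X]

lemma toK_ne_zero {x : X} {a : X.presheaf.stalk x} (ha : a ≠ 0) : toK x a ≠ 0 := by
  rwa [Ne, map_eq_zero_iff _ (toK_injective x)]

lemma ord_toK_nonneg_of_specializes {y x : X} (h : y ⤳ x) (a : X.presheaf.stalk x) :
    0 ≤ Scheme.ord (toK x a) y := by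
  rw [← toK_toStalk h]
  exact ord_toK_nonneg _

lemma ord_toK_eq_zero_of_notMem {y x : X} (h : y ⤳ x) {a : X.presheaf.stalk x}
    (ha : a ∉ primeAt h) : Scheme.ord (toK x a) y = 0 := by
  rw [← toK_toStalk h]
  rw [mem_primeAt, not_not] at ha
  exact ord_toK_of_isUnit ha

variable (hreg : ∀ y : X, coheight y = 1 → IsDiscreteValuationRing (X.presheaf.stalk y))

include hreg

lemma one_le_ord_of_mem {y x : X} (h : y ⤳ x) (hy : coheight y = 1) {a : X.presheaf.stalk x}
    (ha : a ∈ primeAt h) (ha0 : a ≠ 0) : 1 ≤ Scheme.ord (toK x a) y := by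
  have h0 := ord_toK_nonneg_of_specializes h a
  rcases h0.eq_or_lt with h1 | h1
  · exfalso
    rw [← toK_toStalk h] at h1
    have h2 : toStalk h a ≠ 0 := by
      rwa [Ne, map_eq_zero_iff _ (toStalk_injective h)]
    exact (mem_primeAt h a).1 ha (isUnit_of_ord_eq_zero hreg hy h2 h1.symm)
  · omega

/-- Height one primes of a factorial local ring are principal. -/
theorem exists_prime_elem {y x : X} (h : y ⤳ x) (hy : coheight y = 1)
    [UniqueFactorizationMonoid (X.presheaf.stalk x)] :
    ∃ p : X.presheaf.stalk x, Prime p ∧ primeAt h = Ideal.span {p} ∧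
      Scheme.ord (toK x p) y = 1 := by
  obtain ⟨t, ht0, ht⟩ := exists_uniformizer hreg hy
  obtain ⟨a, b, hb, hab⟩ := exists_frac h t
  have hb0 : toStalk h b ≠ 0 := hb.ne_zero
  have ha : Scheme.ord (toK x a) y = 1 := by
    rw [← toK_toStalk h, ← hab, map_mul, Scheme.ord_mul (toK_ne_zero ht0) (toK_ne_zero hb0), ht,
      ord_toK_of_isUnit hb, add_zero]
  have ha0 : a ≠ 0 := by
    rintro rfl
    rw [map_zero, Scheme.ord_zero] at ha
    simp at ha
  have hamem : a ∈ primeAt h := by
    by_contra hcon
    rw [ord_toK_eq_zero_of_notMem h hcon] at ha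
    exact zero_ne_one ha
  -- a prime factor
  have hfac : (UniqueFactorizationMonoid.factors a).prod ∈ primeAt h := by
    obtain ⟨u, hu⟩ := (UniqueFactorizationMonoid.factors_prod ha0).symm
    rw [← hu]
    exact Ideal.mul_mem_right _ _ hamem
  obtain ⟨p, hpf, hp⟩ :=
    ((inferInstance : (primeAt h).IsPrime).multiset_prod_mem_iff_exists_mem _).1 hfac
  have hpp : Prime p := UniqueFactorizationMonoid.prime_of_factor p hpf
  obtain ⟨c, hc⟩ := UniqueFactorizationMonoid.dvd_of_mem_factors hpf
  have hp0 : p ≠ 0 := hpp.ne_zero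
  have hc0 : c ≠ 0 := by
    rintro rfl
    rw [mul_zero] at hc
    exact ha0 hc
  have hordp : Scheme.ord (toK x p) y = 1 := by
    have h1 := one_le_ord_of_mem hreg h hy hp hp0
    have h2 := ord_toK_nonneg_of_specializes h c
    rw [hc, map_mul, Scheme.ord_mul (toK_ne_zero hp0) (toK_ne_zero hc0)] at ha
    omega
  refine ⟨p, hpp, ?_, hordp⟩
  refine le_antisymm ?_ ?_
  · intro d hd
    rw [Ideal.mem_span_singleton]
    by_cases hd0 : d = 0
    · rw [hd0]; exact dvd_zero _
    have h1 := one_le_ord_of_mem hreg h hy hd hd0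
    have hq0 : toK x d / toK x p ≠ 0 := div_ne_zero (toK_ne_zero hd0) (toK_ne_zero hp0)
    have h2 : 0 ≤ Scheme.ord (toK x d / toK x p) y := by
      have h3 := Scheme.ord_mul (x := y) hq0 (toK_ne_zero hp0)
      rw [div_mul_cancel₀ _ (toK_ne_zero hp0)] at h3
      omega
    obtain ⟨s, hs⟩ := exists_of_ord_nonneg hreg hy hq0 h2
    obtain ⟨e, f, hf, hef⟩ := exists_frac h s
    have h4 : toK x d / toK x p * toK x f = toK x e := by
      rw [← hs, ← toK_toStalk h, ← toK_toStalk h, ← map_mul, hef]
    have h5 : d * f = p * e := by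
      apply toK_injective x
      rw [map_mul, map_mul, ← h4]
      have := toK_ne_zero hp0
      field_simp
    rcases hpp.dvd_or_dvd ⟨e, h5⟩ with h6 | h6
    · exact h6
    · exfalso
      have h7 : f ∈ primeAt h := by
        obtain ⟨w, rfl⟩ := h6
        exact Ideal.mul_mem_right _ _ hp
      exact (mem_primeAt h f).1 h7 hf
  · rw [Ideal.span_singleton_le_iff_mem]
    exact hp

theorem ord_prime_elem {y x y' : X} (h : y ⤳ x) (h' : y' ⤳ x) (hy' : coheight y' = 1)
    [UniqueFactorizationMonoid (X.presheaf.stalk x)] {p : X.presheaf.stalk x} (hp : Prime p)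
    (hspan : primeAt h = Ideal.span {p}) (hne : y' ≠ y) :
    Scheme.ord (toK x p) y' = 0 := by
  by_contra hcon
  obtain ⟨p', hp', hspan', -⟩ := exists_prime_elem hreg h' hy'
  have h1 : p ∈ primeAt h' := by
    by_contra hc
    exact hcon (ord_toK_eq_zero_of_notMem h' hc)
  rw [hspan', Ideal.mem_span_singleton] at h1
  have h2 : Associated p' p := hp'.associated_of_dvd hp h1
  apply hne
  apply eq_of_primeAt_eq h' h
  rw [hspan, hspan']
  exact Ideal.span_singleton_eq_span_singleton.2 h2

/-- **Local equations** of divisors on a scheme with factorial local rings. -/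
theorem exists_local_equation (x : X) [UniqueFactorizationMonoid (X.presheaf.stalk x)]
    (B : X → ℤ) (hB : {y : X | coheight y = 1 ∧ y ⤳ x ∧ B y ≠ 0}.Finite) :
    ∃ g : X.functionField, g ≠ 0 ∧
      ∀ y : X, coheight y = 1 → y ⤳ x → Scheme.ord g y = B y := by
  classical
  -- prime elements
  have key : ∀ y : X, ∃ p : X.functionField, p ≠ 0 ∧ (coheight y = 1 → y ⤳ x →
      Scheme.ord p y = 1 ∧ ∀ y' : X, coheight y' = 1 → y' ⤳ x → y' ≠ y →
        Scheme.ord p y' = 0) := by
    intro y
    by_cases hy : coheight y = 1 ∧ y ⤳ x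
    · obtain ⟨p, hp, hspan, hord⟩ := exists_prime_elem hreg hy.2 hy.1
      refine ⟨toK x p, toK_ne_zero hp.ne_zero, fun _ _ => ⟨hord, fun y' hy' h' hne => ?_⟩⟩
      exact ord_prime_elem hreg hy.2 h' hy' hp hspan hne
    · exact ⟨1, one_ne_zero, fun h1 h2 => absurd ⟨h1, h2⟩ hy⟩
  choose p hp0 hp using key
  have hzpow : ∀ (f : X.functionField) (y : X) (n : ℤ), f ≠ 0 →
      Scheme.ord (f ^ n) y = n * Scheme.ord f y := by
    intro f y n hf
    have hone : Scheme.ord (1 : X.functionField) y = 0 := by
      have := Scheme.ord_mul (x := y) (one_ne_zero (α := X.functionField)) one_ne_zero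
      rw [one_mul] at this
      linarith
    have hnat : ∀ m : ℕ, Scheme.ord (f ^ m) y = m * Scheme.ord f y := by
      intro m
      induction m with
      | zero => simp [hone]
      | succ m ih =>
        rw [pow_succ, Scheme.ord_mul (pow_ne_zero m hf) hf, ih]
        push_cast
        ring
    cases n with
    | ofNat m => simpa using hnat m
    | negSucc m =>
      have h1 := Scheme.ord_mul (x := y) (zpow_ne_zero (Int.negSucc m) hf)
        (pow_ne_zero (m + 1) hf)
      have h2 : f ^ Int.negSucc m * f ^ (m + 1) = 1 := by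
        rw [zpow_negSucc]
        exact inv_mul_cancel₀ (pow_ne_zero _ hf)
      rw [h2, hone, hnat] at h1
      push_cast at h1
      have h3 : Scheme.ord (f ^ Int.negSucc m) y = -((m : ℤ) + 1) * Scheme.ord f y := by
        linarith
      rw [h3, Int.negSucc_eq]
  have hprod : ∀ (s : Finset X) (y : X),
      Scheme.ord (∏ z ∈ s, p z ^ B z) y = ∑ z ∈ s, B z * Scheme.ord (p z) y := by
    intro s y
    induction s using Finset.induction_on with
    | empty =>
      have := Scheme.ord_mul (x := y) (one_ne_zero (α := X.functionField)) one_ne_zero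
      rw [one_mul] at this
      simp only [Finset.prod_empty, Finset.sum_empty]
      linarith
    | insert z s hz ih =>
      rw [Finset.prod_insert hz, Finset.sum_insert hz, Scheme.ord_mul
        (zpow_ne_zero _ (hp0 z)) (Finset.prod_ne_zero_iff.2 fun w _ => zpow_ne_zero _ (hp0 w)),
        ih, hzpow _ _ _ (hp0 z)]
  refine ⟨∏ z ∈ hB.toFinset, p z ^ B z,
    Finset.prod_ne_zero_iff.2 fun w _ => zpow_ne_zero _ (hp0 w), fun y hy hyx => ?_⟩
  rw [hprod]
  by_cases hBy : B y = 0
  · rw [hBy]
    refine Finset.sum_eq_zero fun z hz => ?_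
    rw [Set.Finite.mem_toFinset] at hz
    obtain ⟨h1, h2, h3⟩ := hz
    have hne : y ≠ z := by
      rintro rfl
      exact h3 hBy
    rw [(hp z h1 h2).2 y hy hyx hne, mul_zero]
  · have hmem : y ∈ hB.toFinset := by
      rw [Set.Finite.mem_toFinset]
      exact ⟨hy, hyx, hBy⟩
    rw [Finset.sum_eq_single y]
    · rw [(hp y hy hyx).1, mul_one]
    · intro z hz hne
      rw [Set.Finite.mem_toFinset] at hz
      rw [(hp z hz.1 hz.2.1).2 y hy hyx hne.symm, mul_zero]
    · intro h
      exact absurd hmem h

omit [IsLocallyNoetherian X] hreg in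
/-- A principal prime of a local ring comes from a generization of codimension one. -/
theorem exists_codim_one_of_prime {x : X} {p : X.presheaf.stalk x} (hp : Prime p)
    [UniqueFactorizationMonoid (X.presheaf.stalk x)] :
    ∃ y : X, ∃ h : y ⤳ x, coheight y = 1 ∧ primeAt h = Ideal.span {p} := by
  have hprime : (Ideal.span {p}).IsPrime := (Ideal.span_singleton_prime hp.ne_zero).2 hp
  obtain ⟨y, h, hy⟩ := exists_primeAt (Ideal.span {p})
  refine ⟨y, h, ?_, hy⟩
  have hmem : p ∈ primeAt h := by
    rw [hy]
    exact Ideal.mem_span_singleton_self p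
  have hη : ∀ z : X, genericPoint X ⤳ z := fun z => genericPoint_specializes z
  -- `y` is not the generic point
  have h1 : ¬ IsMax y := by
    intro hmax
    have h2 : genericPoint X ≤ y := hmax (show y ≤ genericPoint X from hη y)
    have h3 : y ⤳ genericPoint X := h2
    have h4 : toStalk h3 (toStalk (hη x) p) = toStalk h p := toStalk_toStalk h3 (hη x) p
    have h5 : IsUnit (toStalk (hη x) p) := by
      have h6 : toStalk (hη x) p ≠ 0 := by
        rw [Ne, map_eq_zero_iff _ (toStalk_injective (hη x))]
        exact hp.ne_zero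
      have h7 : ∀ t : X.functionField, t ≠ 0 → IsUnit t := fun t ht => isUnit_iff_ne_zero.2 ht
      exact h7 _ h6
    exact (mem_primeAt h p).1 hmem (h4 ▸ h5.map (toStalk h3))
  refine le_antisymm ?_ ?_
  · have h2 : coheight y ≤ ((1 : ℕ) : ℕ∞) := by
      rw [coheight_le_coe_iff]
      intro z hz
      have hzy : z ⤳ y := hz.le
      have hzx : z ⤳ x := hzy.trans h
      have h3 : primeAt hzx ≤ primeAt h := by
        intro c hc
        rw [mem_primeAt] at hc ⊢
        intro hcu
        apply hc
        rw [← toStalk_toStalk hzy h]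
        exact hcu.map _
      have h4 : primeAt hzx = ⊥ := by
        by_contra hne
        obtain ⟨r, hr, hrp⟩ :=
          (inferInstance : (primeAt hzx).IsPrime).exists_mem_prime_of_ne_bot hne
        have h5 := h3 hr
        rw [hy, Ideal.mem_span_singleton] at h5
        have h6 : Associated p r := hp.associated_of_dvd hrp h5
        have h7 : primeAt hzx = primeAt h := by
          refine le_antisymm h3 ?_
          rw [hy, Ideal.span_singleton_le_iff_mem]
          obtain ⟨c, hc⟩ := h6.symm.dvd
          rw [hc]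
          exact Ideal.mul_mem_right _ _ hr
        have h8 := eq_of_primeAt_eq hzx h h7
        rw [h8] at hz
        exact lt_irrefl _ hz
      have h5 : primeAt (hη x) = ⊥ := by
        rw [eq_bot_iff]
        intro c hc
        rw [mem_primeAt] at hc
        rw [Ideal.mem_bot]
        by_contra hc0
        apply hc
        have h6 : toStalk (hη x) c ≠ 0 := by
          rw [Ne, map_eq_zero_iff _ (toStalk_injective (hη x))]
          exact hc0
        have h7 : ∀ t : X.functionField, t ≠ 0 → IsUnit t := fun t ht => isUnit_iff_ne_zero.2 ht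
        exact h7 _ h6
      have h6 : z = genericPoint X := eq_of_primeAt_eq hzx (hη x) (h4.trans h5.symm)
      have h7 : coheight z = 0 := by
        rw [coheight_eq_zero, h6]
        intro w _
        exact hη w
      rw [h7]
      simp
    simpa using h2
  · rw [Order.one_le_iff_ne_zero]
    intro h0
    rw [coheight_eq_zero] at h0
    exact h1 h0

/-- **Normality**: on a scheme with factorial local rings a rational function without poles at
the generizations of codimension one of `x` is regular at `x`. -/
theorem exists_of_forall_ord_nonneg (x : X) [UniqueFactorizationMonoid (X.presheaf.stalk x)]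
    (u : X.functionField)
    (h : ∀ y : X, coheight y = 1 → y ⤳ x → 0 ≤ Scheme.ord u y) :
    ∃ a : X.presheaf.stalk x, toK x a = u := by
  by_cases hu : u = 0
  · exact ⟨0, by rw [hu, map_zero]⟩
  obtain ⟨a, b, hab, hmk⟩ := IsFractionRing.exists_reduced_fraction (X.presheaf.stalk x) u
  rw [IsFractionRing.mk'_eq_div] at hmk
  have hb0 : b.1 ≠ 0 := nonZeroDivisors.ne_zero b.2
  have ha0 : a ≠ 0 := by
    rintro rfl
    rw [map_zero, zero_div] at hmk
    exact hu hmk.symm
  have hb : IsUnit b.1 := by
    by_contra hbu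
    obtain ⟨p, hpi, hpb⟩ := WfDvdMonoid.exists_irreducible_factor hbu hb0
    have hp : Prime p := hpi.prime
    obtain ⟨y, hyx, hy, hspan⟩ := exists_codim_one_of_prime hp
    have hbm : b.1 ∈ primeAt hyx := by
      rw [hspan, Ideal.mem_span_singleton]
      exact hpb
    have ham : a ∉ primeAt hyx := by
      rw [hspan, Ideal.mem_span_singleton]
      intro hpa
      exact hp.not_isUnit (hab hpa hpb)
    have h1 := one_le_ord_of_mem hreg hyx hy hbm hb0
    have h2 := ord_toK_eq_zero_of_notMem hyx ham
    have h3 := h y hy hyx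
    have h4 : u * toK x b.1 = toK x a := by
      rw [← hmk]
      exact div_mul_cancel₀ _ (toK_ne_zero hb0)
    have h5 := Scheme.ord_mul (x := y) hu (toK_ne_zero hb0)
    rw [h4, h2] at h5
    omega
  obtain ⟨c, hc⟩ := hb.exists_right_inv
  refine ⟨a * c, ?_⟩
  have h4 : u * toK x b.1 = toK x a := by
    rw [← hmk]
    exact div_mul_cancel₀ _ (toK_ne_zero hb0)
  rw [map_mul, ← h4, mul_assoc, ← map_mul, hc, map_one, mul_one]

/-- On a scheme with factorial local rings, a rational function with trivial divisor near `x`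
is a unit at `x`. -/
theorem exists_unit_of_forall_ord_eq_zero (x : X)
    [UniqueFactorizationMonoid (X.presheaf.stalk x)]
    (u : X.functionField) (hu : u ≠ 0)
    (h : ∀ y : X, coheight y = 1 → y ⤳ x → Scheme.ord u y = 0) :
    ∃ a : X.presheaf.stalk x, IsUnit a ∧ toK x a = u := by
  obtain ⟨a, ha⟩ := exists_of_forall_ord_nonneg hreg x u (fun y hy hyx => (h y hy hyx).ge)
  have h' : ∀ y : X, coheight y = 1 → y ⤳ x → 0 ≤ Scheme.ord u⁻¹ y := by
    intro y hy hyx
    have h1 := Scheme.ord_mul (x := y) hu (inv_ne_zero hu)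
    rw [mul_inv_cancel₀ hu, h y hy hyx, zero_add] at h1
    have h2 := Scheme.ord_mul (x := y) (one_ne_zero (α := X.functionField)) one_ne_zero
    rw [one_mul] at h2
    linarith
  obtain ⟨b, hb⟩ := exists_of_forall_ord_nonneg hreg x u⁻¹ h'
  refine ⟨a, ?_, ha⟩
  have hab : a * b = 1 := by
    apply toK_injective x
    rw [map_mul, ha, hb, map_one, mul_inv_cancel₀ hu]
  exact IsUnit.of_mul_eq_one b hab

end factorial

end Vale.Agent.P299.G
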