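import Vale.Agent.P299.G.Inter

/-!
# Asymptotics of intersection numbers, without mixed positivity

`I` is a symmetric multilinear form on a group of classes, `L`, `H` are classes with
`(tL + H)^n > 0` for all `t ≥ 0`, and `D · (tL + H)^(n-1) ≥ 0` for effective `D`.
-/

open Finset

namespace Vale.Agent.P299.G

variable {A : Type*} [AddCommGroup A]

/-- A polynomial with positive leading coefficient is positive at large integers. -/
theorem poly_pos (c : ℕ → ℤ) (ν : ℕ) (h : 0 < c ν) :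
    ∃ t₀ : ℕ, ∀ t : ℕ, t₀ ≤ t → 0 < ∑ j ∈ range (ν + 1), c j * (t : ℤ) ^ j := by
  set S : ℤ := ∑ j ∈ range ν, |c j| with hS
  have hS0 : 0 ≤ S := Finset.sum_nonneg fun j _ => abs_nonneg _
  refine ⟨(S + 1).toNat, fun t ht => ?_⟩
  have ht1 : S + 1 ≤ (t : ℤ) := by
    have := Int.self_le_toNat (S + 1)
    omega
  rw [Finset.sum_range_succ]
  rcases Nat.eq_zero_or_pos ν with h0 | h0
  · subst h0
    simpa using h
  · obtain ⟨e, rfl⟩ := Nat.exists_eq_succ_of_ne_zero h0.ne'
    have h1 : -(S * (t : ℤ) ^ e) ≤ ∑ j ∈ range (e + 1), c j * (t : ℤ) ^ j := by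
      rw [hS, Finset.sum_mul, ← Finset.sum_neg_distrib]
      refine Finset.sum_le_sum fun j hj => ?_
      rw [Finset.mem_range] at hj
      have h2 : (t : ℤ) ^ j ≤ (t : ℤ) ^ e := pow_le_pow_right₀ (by linarith) (by omega)
      have h3 : (0 : ℤ) ≤ (t : ℤ) ^ j := by positivity
      calc -(|c j| * (t : ℤ) ^ e) ≤ -(|c j| * (t : ℤ) ^ j) :=
            neg_le_neg (mul_le_mul_of_nonneg_left h2 (abs_nonneg _))
        _ = (-|c j|) * (t : ℤ) ^ j := by ring
        _ ≤ c j * (t : ℤ) ^ j := mul_le_mul_of_nonneg_right (neg_abs_le _) h3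
    have h4 : (S + 1) * (t : ℤ) ^ e ≤ c (e + 1) * (t : ℤ) ^ (e + 1) := by
      have h5 : (0 : ℤ) ≤ (t : ℤ) ^ e := by positivity
      calc (S + 1) * (t : ℤ) ^ e ≤ t * (t : ℤ) ^ e := mul_le_mul_of_nonneg_right ht1 h5
        _ = 1 * (t : ℤ) ^ (e + 1) := by ring
        _ ≤ c (e + 1) * (t : ℤ) ^ (e + 1) := mul_le_mul_of_nonneg_right h (by positivity)
    have h6 : (0 : ℤ) < (t : ℤ) ^ e := by
      have : (0 : ℤ) < t := by linarith
      positivity
    change 0 < ∑ j ∈ range (e + 1), c j * (t : ℤ) ^ j + c (e + 1) * (t : ℤ) ^ (e + 1)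
    linarith

section Poly

variable {m : ℕ} {J : MultilinearMap ℤ (fun _ : Fin m => A) ℤ} (hJ : Symm J) (L H : A)

include hJ

/-- The intersection number as a polynomial in `t`. -/
theorem expand_nat (t : ℕ) : J (fun _ => (t : ℤ) • L + H) =
    ∑ j ∈ range (m + 1), ((m.choose j : ℤ) * J (mix L H j)) * (t : ℤ) ^ j := by
  have h1 : (fun _ : Fin m => (t : ℤ) • L + H) = fun _ => (t : ℤ) • L + (1 : ℤ) • H := by
    funext i
    rw [one_smul]
  rw [h1, expand hJ]
  refine Finset.sum_congr rfl fun j _ => ?_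
  ring

theorem expand_nat_of_zero {μ : ℕ} (hμ : μ ≤ m + 1)
    (hz : ∀ j, μ ≤ j → j ≤ m → J (mix L H j) = 0) (t : ℕ) : J (fun _ => (t : ℤ) • L + H) =
    ∑ j ∈ range μ, ((m.choose j : ℤ) * J (mix L H j)) * (t : ℤ) ^ j := by
  rw [expand_nat hJ, ← Finset.sum_range_add_sum_Ico _ hμ, Finset.sum_eq_zero (s := Finset.Ico _ _),
    add_zero]
  intro j hj
  rw [Finset.mem_Ico] at hj
  rw [hz j hj.1 (by omega), mul_zero, zero_mul]

/-- The leading coefficient of a nonnegative polynomial. -/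
theorem leading_nonneg {ν : ℕ} (hν : ν ≤ m)
    (h : ∀ t : ℕ, 0 ≤ J (fun _ => (t : ℤ) • L + H))
    (hz : ∀ j, ν < j → j ≤ m → J (mix L H j) = 0) : 0 ≤ J (mix L H ν) := by
  by_contra hc
  push Not at hc
  obtain ⟨t₀, ht₀⟩ := poly_pos (fun j => -((m.choose j : ℤ) * J (mix L H j))) ν (by
    have h1 : (0 : ℤ) < m.choose ν := by exact_mod_cast Nat.choose_pos hν
    have := mul_pos h1 (neg_pos.2 hc)
    linarith)
  have h1 := ht₀ t₀ le_rfl
  have h2 := h t₀
  rw [expand_nat_of_zero hJ L H (show ν + 1 ≤ m + 1 by omega) fun j hj hjm => hz j hj hjm] at h2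
  simp only [neg_mul, Finset.sum_neg_distrib] at h1
  linarith

end Poly

section Nu

variable {m : ℕ} {I : MultilinearMap ℤ (fun _ : Fin (m + 1) => A) ℤ} (hI : Symm I) {L H : A}
  (hpos : ∀ t : ℕ, 0 < I (fun _ => (t : ℤ) • L + H))

include hI hpos

/-- The numerical dimension. -/
theorem exists_nu_asym :
    ∃ ν, ν ≤ m + 1 ∧ 0 < I (mix L H ν) ∧ ∀ j, ν < j → j ≤ m + 1 → I (mix L H j) = 0 := by
  classical
  have h0 : I (mix L H 0) ≠ 0 := by
    have h1 := hpos 0
    have h2 : (mix L H 0 : Fin (m + 1) → A) = fun _ => ((0 : ℕ) : ℤ) • L + H := by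
      funext i
      simp [mix]
    rw [h2]
    exact h1.ne'
  have hne : ((range (m + 1 + 1)).filter fun j => I (mix L H j) ≠ 0).Nonempty :=
    ⟨0, by simp [h0]⟩
  set ν := ((range (m + 1 + 1)).filter fun j => I (mix L H j) ≠ 0).max' hne with hν
  have h1 := Finset.max'_mem _ hne
  rw [← hν, Finset.mem_filter, Finset.mem_range] at h1
  have hz : ∀ j, ν < j → j ≤ m + 1 → I (mix L H j) = 0 := by
    intro j hj hjn
    by_contra hc
    have h2 : j ≤ ν := by
      rw [hν]
      apply Finset.le_max'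
      rw [Finset.mem_filter, Finset.mem_range]
      exact ⟨by omega, hc⟩
    omega
  refine ⟨ν, by omega, lt_of_le_of_ne ?_ (Ne.symm h1.2), hz⟩
  exact leading_nonneg hI L H (by omega) (fun t => (hpos t).le) hz

variable {Eff : A → Prop}
  (heff : ∀ D, Eff D → ∀ t : ℕ, 0 ≤ I (Fin.cons D (fun _ => (t : ℤ) • L + H)))
  (hdom : ∀ x : A, ∃ C : ℕ, Eff ((C : ℤ) • H - x) ∧ Eff ((C : ℤ) • H + x))
  {ν : ℕ} (hz : ∀ j, ν < j → j ≤ m + 1 → I (mix L H j) = 0)

omit hpos in
include hz in
/-- `I (H, L^j, H^(m-j)) = 0` for `j > ν`. -/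
theorem cons_self_eq_zero {j : ℕ} (hj : ν < j) (hjm : j ≤ m) :
    I (Fin.cons H (mix L H j)) = 0 := by
  classical
  rw [← hz j hj (by omega)]
  have h1 := symm_piecewise hI L H
    ((univ.filter fun i : Fin m => i.val < j).map (Fin.succEmb m))
  rw [Finset.card_map, Fin.card_filter_val_lt, min_eq_right hjm] at h1
  rw [← h1]
  congr 1
  funext i
  unfold Finset.piecewise
  refine Fin.cases ?_ (fun i => ?_) i
  · rw [Fin.cons_zero, if_neg]
    rw [Finset.mem_map]
    rintro ⟨x, _, hx⟩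
    exact Fin.succ_ne_zero _ hx
  · rw [Fin.cons_succ]
    unfold mix
    by_cases hi : i.val < j
    · rw [if_pos hi, if_pos]
      rw [Finset.mem_map]
      exact ⟨i, by rw [Finset.mem_filter]; exact ⟨Finset.mem_univ _, hi⟩, rfl⟩
    · rw [if_neg hi, if_neg]
      rw [Finset.mem_map]
      rintro ⟨x, hx, hx2⟩
      rw [Finset.mem_filter] at hx
      have : x = i := Fin.succ_injective _ hx2
      rw [this] at hx
      exact hi hx.2

omit hpos in
include heff hdom hz in
/-- `I (x, L^j, H^(m-j)) = 0` for every class `x` if `j > ν`. -/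
theorem cons_eq_zero_asym (x : A) {j : ℕ} (hj : ν < j) (hjm : j ≤ m) :
    I (Fin.cons x (mix L H j)) = 0 := by
  classical
  by_contra hc
  -- the largest such index
  have hne : ((range (m + 1)).filter fun j => ν < j ∧ I (Fin.cons x (mix L H j)) ≠ 0).Nonempty :=
    ⟨j, by rw [Finset.mem_filter, Finset.mem_range]; exact ⟨by omega, hj, hc⟩⟩
  set l := ((range (m + 1)).filter fun j => ν < j ∧ I (Fin.cons x (mix L H j)) ≠ 0).max' hne
    with hl
  have h1 := Finset.max'_mem _ hne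
  rw [← hl, Finset.mem_filter, Finset.mem_range] at h1
  obtain ⟨h1m, h1ν, h1x⟩ := h1
  have hzx : ∀ j, l < j → j ≤ m → I (Fin.cons x (mix L H j)) = 0 := by
    intro j hj hjm
    by_contra hc
    have h2 : j ≤ l := by
      rw [hl]
      apply Finset.le_max'
      rw [Finset.mem_filter, Finset.mem_range]
      exact ⟨by omega, by omega, hc⟩
    omega
  have hlin : ∀ (a b : A) (v : Fin m → A), I (Fin.cons (a + b) v) =
      I (Fin.cons a v) + I (Fin.cons b v) := by
    intro a b v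
    have := I.cons_add v a b
    exact this
  have hsm : ∀ (c : ℤ) (a : A) (v : Fin m → A), I (Fin.cons (c • a) v) =
      c * I (Fin.cons a v) := by
    intro c a v
    have := I.cons_smul v c a
    exact this
  obtain ⟨C, hC1, hC2⟩ := hdom x
  have key : ∀ y : A, Eff ((C : ℤ) • H + y) → (∀ j, l < j → j ≤ m → I (Fin.cons y (mix L H j)) = 0) →
      0 ≤ I (Fin.cons y (mix L H l)) := by
    intro y hy hzy
    have h2 : ∀ j, ν < j → j ≤ m → I (Fin.cons ((C : ℤ) • H + y) (mix L H j)) =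
        I (Fin.cons y (mix L H j)) := by
      intro j hj hjm
      rw [hlin, hsm, cons_self_eq_zero hI hz hj hjm, mul_zero, zero_add]
    have h3 := leading_nonneg (J := I.curryLeft ((C : ℤ) • H + y)) (symm_curryLeft hI _) L H
      (ν := l) (by omega)
      (fun t => by rw [MultilinearMap.curryLeft_apply]; exact heff _ hy t)
      (fun j hj hjm => by
        rw [MultilinearMap.curryLeft_apply, h2 j (by omega) hjm]
        exact hzy j hj hjm)
    rwa [MultilinearMap.curryLeft_apply, h2 l h1ν (by omega)] at h3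
  have h4 := key x hC2 hzx
  have hneg : ∀ v : Fin m → A, I (Fin.cons (-x) v) = -I (Fin.cons x v) := by
    intro v
    have := hsm (-1) x v
    rw [neg_smul, one_smul] at this
    rw [this]
    ring
  have h5 := key (-x) (by rwa [← sub_eq_add_neg]) fun j hj hjm => by
    rw [hneg, hzx j hj hjm, neg_zero]
  rw [hneg] at h5
  exact h1x (by omega)

omit hpos in
include heff hdom hz in
/-- The degree `D ↦ I (D, L^ν, H^(m-ν))` is nonnegative on effective classes. -/
theorem delta_nonneg_asym (hν : ν ≤ m) {D : A} (hD : Eff D) :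
    0 ≤ I (Fin.cons D (mix L H ν)) := by
  have h1 := leading_nonneg (J := I.curryLeft D) (symm_curryLeft hI D) L H hν
    (fun t => by rw [MultilinearMap.curryLeft_apply]; exact heff D hD t)
    (fun j hj hjm => by
      rw [MultilinearMap.curryLeft_apply]
      exact cons_eq_zero_asym hI heff hdom hz D hj hjm)
  rwa [MultilinearMap.curryLeft_apply] at h1

omit hpos in
include heff hdom hz in
theorem delta_nonpos_asym (hν : ν ≤ m) {P : A}
    (hP : ∀ t : ℕ, I (Fin.cons P (fun _ => (t : ℤ) • L + H)) ≤ 0) :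
    I (Fin.cons P (mix L H ν)) ≤ 0 := by
  have h1 := leading_nonpos (J := I.curryLeft P) (symm_curryLeft hI P) L H hν
    (fun t => by rw [MultilinearMap.curryLeft_apply, add_comm H]; exact hP t)
    (fun j hj hjm => by
      rw [MultilinearMap.curryLeft_apply]
      exact cons_eq_zero_asym hI heff hdom hz P hj hjm)
  rwa [MultilinearMap.curryLeft_apply] at h1

omit hpos in
include hz in
/-- The numerical input of the criterion for bigness: `n t B·(tL+H)^(n-1) < e (tL+H)^n`. -/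
theorem exists_siu_asym (hν : ν ≤ m + 1) (hνpos : 0 < I (mix L H ν)) {B : A}
    (hB : ∀ j, ν ≤ j → j ≤ m → I (Fin.cons B (mix L H j)) = 0) :
    ∃ e : ℕ, 0 < e ∧ ∃ t₀ : ℕ, ∀ t : ℕ, t₀ ≤ t →
      ((m + 1 : ℕ) : ℤ) * (t * I (Fin.cons B (fun _ => (t : ℤ) • L + H))) <
        e * I (fun _ => (t : ℤ) • L + H) := by
  set J := I.curryLeft B with hJ
  have hJs : Symm J := symm_curryLeft hI B
  have hJa : ∀ v : Fin m → A, J v = I (Fin.cons B v) := fun v => by
    rw [hJ, MultilinearMap.curryLeft_apply]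
  -- the coefficients of `t * J (tL + H)`
  set d : ℕ → ℤ := fun j => if j = 0 then 0 else
    (m.choose (j - 1) : ℤ) * J (mix L H (j - 1)) with hd
  have h1 : ∀ t : ℕ, (t : ℤ) * I (Fin.cons B (fun _ => (t : ℤ) • L + H)) =
      ∑ j ∈ range (ν + 1), d j * (t : ℤ) ^ j := by
    intro t
    rw [← hJa, expand_nat_of_zero hJs L H hν (fun j hj hjm => by rw [hJa]; exact hB j hj hjm) t,
      Finset.sum_range_succ', Finset.mul_sum]
    simp only [hd, if_true, zero_mul, add_zero, Nat.add_eq_zero_iff, one_ne_zero, and_false,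
      if_false, Nat.add_sub_cancel]
    refine Finset.sum_congr rfl fun j _ => ?_
    ring
  set e : ℕ := (((m + 1 : ℕ) : ℤ) * |d ν| + 1).toNat with he
  have he1 : (e : ℤ) = ((m + 1 : ℕ) : ℤ) * |d ν| + 1 := Int.toNat_of_nonneg (by positivity)
  have he0 : (0 : ℤ) < e := by rw [he1]; positivity
  obtain ⟨t₀, ht₀⟩ := poly_pos (fun j => e * (((m + 1).choose j : ℤ) * I (mix L H j)) -
    ((m + 1 : ℕ) : ℤ) * d j) ν (by
      have c1 : (1 : ℤ) ≤ ((m + 1).choose ν : ℤ) := by exact_mod_cast Nat.choose_pos hν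
      have c3 : (1 : ℤ) ≤ I (mix L H ν) := hνpos
      have c4 : (1 : ℤ) ≤ ((m + 1).choose ν : ℤ) * I (mix L H ν) := by nlinarith
      have c5 : (e : ℤ) ≤ e * (((m + 1).choose ν : ℤ) * I (mix L H ν)) := by nlinarith
      have c6 : ((m + 1 : ℕ) : ℤ) * d ν ≤ ((m + 1 : ℕ) : ℤ) * |d ν| :=
        mul_le_mul_of_nonneg_left (le_abs_self _) (by positivity)
      linarith)
  refine ⟨e, by exact_mod_cast he0, t₀, fun t ht => ?_⟩
  have h2 := ht₀ t ht
  rw [h1, expand_nat_of_zero hI L H (show ν + 1 ≤ m + 1 + 1 by omega)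
    (fun j hj hjm => hz j hj hjm)]
  rw [← sub_pos, Finset.mul_sum, Finset.mul_sum, ← Finset.sum_sub_distrib]
  refine lt_of_lt_of_eq h2 (Finset.sum_congr rfl fun j _ => ?_)
  ring

end Nu

end Vale.Agent.P299.G
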