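import Mathlib.Algebra.MvPolynomial.Degrees
import Mathlib.Algebra.MvPolynomial.Eval
import Mathlib.Algebra.BigOperators.Intervals
import Mathlib.Algebra.BigOperators.Fin
import Mathlib.Algebra.BigOperators.Group.Finset.Powerset
import Mathlib.Data.Finsupp.Multiset
import Mathlib.Tactic.Ring
import Mathlib.Tactic.Linarith
import Mathlib.Tactic.Module

/-!
# Finite differences of polynomial functions
-/

open Finset

namespace Vale.Agent.P299.G

variable {A : Type*} [AddCommGroup A]

/-- `f : A → ℚ` is polynomial of degree less than `d`: all its `d`-fold differences vanish. -/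
def PolyLt : ℕ → (A → ℚ) → Prop
  | 0, f => f = 0
  | d + 1, f => ∀ v, PolyLt d (fun x => f x - f (x - v))

theorem PolyLt.zero (d : ℕ) : PolyLt d (0 : A → ℚ) := by
  induction d with
  | zero => exact (rfl : (0 : A → ℚ) = 0)
  | succ d ih =>
    intro v
    have : (fun x : A => (0 : A → ℚ) x - (0 : A → ℚ) (x - v)) = 0 := by
      funext x; simp
    rw [this]
    exact ih

theorem PolyLt.add {d : ℕ} {f g : A → ℚ} (hf : PolyLt d f) (hg : PolyLt d g) :
    PolyLt d (f + g) := by
  induction d generalizing f g with
  | zero =>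
    have h1 : f = 0 := hf
    have h2 : g = 0 := hg
    rw [h1, h2, add_zero]
    exact PolyLt.zero 0
  | succ d ih =>
    intro v
    have h := ih (hf v) (hg v)
    have e : (fun x => (f + g) x - (f + g) (x - v)) =
        (fun x => f x - f (x - v)) + fun x => g x - g (x - v) := by
      funext x
      simp only [Pi.add_apply]
      ring
    rw [e]
    exact h

theorem PolyLt.smul {d : ℕ} {f : A → ℚ} (c : ℚ) (hf : PolyLt d f) : PolyLt d (c • f) := by
  induction d generalizing f with
  | zero =>
    have h1 : f = 0 := hf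
    rw [h1, smul_zero]
    exact PolyLt.zero 0
  | succ d ih =>
    intro v
    have h := ih (hf v)
    have e : (fun x => (c • f) x - (c • f) (x - v)) = c • fun x => f x - f (x - v) := by
      funext x
      simp only [Pi.smul_apply, smul_eq_mul]
      ring
    rw [e]
    exact h

theorem PolyLt.sum {d : ℕ} {ι : Type*} (s : Finset ι) {f : ι → A → ℚ}
    (hf : ∀ i ∈ s, PolyLt d (f i)) : PolyLt d (∑ i ∈ s, f i) := by
  classical
  induction s using Finset.induction_on with
  | empty => rw [Finset.sum_empty]; exact PolyLt.zero d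
  | insert i s hi ih =>
    rw [Finset.sum_insert hi]
    exact (hf i (Finset.mem_insert_self _ _)).add
      (ih fun j hj => hf j (Finset.mem_insert_of_mem hj))

theorem PolyLt.succ {d : ℕ} {f : A → ℚ} (hf : PolyLt d f) : PolyLt (d + 1) f := by
  induction d generalizing f with
  | zero =>
    have h1 : f = 0 := hf
    rw [h1]
    exact PolyLt.zero 1
  | succ d ih =>
    intro v
    exact ih (hf v)

theorem PolyLt.mono {d e : ℕ} (h : d ≤ e) {f : A → ℚ} (hf : PolyLt d f) : PolyLt e f := by
  induction h with
  | refl => exact hf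
  | step _ ih => exact ih.succ

theorem PolyLt.translate {d : ℕ} {f : A → ℚ} (hf : PolyLt d f) (a : A) :
    PolyLt d (fun x => f (x - a)) := by
  induction d generalizing f with
  | zero =>
    have h1 : f = 0 := hf
    rw [h1]
    exact PolyLt.zero 0
  | succ d ih =>
    intro v
    have h := ih (hf v)
    have e : (fun x => f (x - a) - f (x - v - a)) =
        fun x => (fun x => f x - f (x - v)) (x - a) := by
      funext x
      simp only
      congr 2
      abel
    rw [e]
    exact h

theorem PolyLt.const (c : ℚ) : PolyLt 1 (fun _ : A => c) := by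
  intro v
  change (fun x : A => c - c) = 0
  funext x
  simp

/-- Multiplication by an additive function raises the degree by one. -/
theorem PolyLt.mul_hom {d : ℕ} {f : A → ℚ} (hf : PolyLt d f) (l : A →+ ℚ) :
    PolyLt (d + 1) (fun x => l x * f x) := by
  induction d generalizing f with
  | zero =>
    have h1 : f = 0 := hf
    rw [h1]
    have : (fun x => l x * (0 : A → ℚ) x) = 0 := by funext x; simp
    rw [this]
    exact PolyLt.zero 1
  | succ d ih =>
    intro v
    have h1 := ih (hf v)
    have h2 := (hf.translate v).smul (l v)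
    have e : (fun x => l x * f x - l (x - v) * f (x - v)) =
        (fun x => l x * (f x - f (x - v))) + l v • fun x => f (x - v) := by
      funext x
      simp only [Pi.add_apply, Pi.smul_apply, smul_eq_mul, map_sub]
      ring
    rw [e]
    exact h1.add h2

/-- A sum over the subsets of `Fin (N + 1)`. -/
theorem sum_finset_succ {N : ℕ} {M : Type*} [AddCommMonoid M] (g : Finset (Fin (N + 1)) → M) :
    ∑ S, g S = ∑ S : Finset (Fin N), g (S.map (Fin.succEmb N)) +
      ∑ S : Finset (Fin N), g (insert 0 (S.map (Fin.succEmb N))) := by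
  classical
  have h0 : (0 : Fin (N + 1)) ∉ (univ : Finset (Fin N)).map (Fin.succEmb N) := by
    rw [Finset.mem_map]
    rintro ⟨j, _, hj⟩
    exact Fin.succ_ne_zero _ hj
  have hu : (univ : Finset (Fin (N + 1))) =
      insert 0 ((univ : Finset (Fin N)).map (Fin.succEmb N)) := by
    rw [Fin.univ_succ, Finset.cons_eq_insert]
    rfl
  have hp : ((univ : Finset (Fin N)).map (Fin.succEmb N)).powerset =
      (univ : Finset (Finset (Fin N))).map
        ⟨fun S => S.map (Fin.succEmb N), Finset.map_injective _⟩ := by
    ext t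
    rw [Finset.mem_powerset, Finset.subset_map_iff, Finset.mem_map]
    constructor
    · rintro ⟨u, _, rfl⟩
      exact ⟨u, Finset.mem_univ _, rfl⟩
    · rintro ⟨u, _, rfl⟩
      exact ⟨u, Finset.subset_univ _, rfl⟩
  rw [← Finset.powerset_univ, hu, Finset.sum_powerset_insert h0, hp, Finset.sum_map,
    Finset.sum_map]
  rfl

/-- The alternating sum over the cube with edges `v i`. -/
theorem PolyLt.cube_eq_zero {N : ℕ} {f : A → ℚ} (hf : PolyLt N f) (v : Fin N → A) (x : A) :
    ∑ S : Finset (Fin N), (-1 : ℚ) ^ S.card * f (x - ∑ i ∈ S, v i) = 0 := by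
  induction N generalizing f x with
  | zero =>
    have h1 : f = 0 := hf
    rw [h1]
    simp
  | succ N ih =>
    have h := ih (hf (v 0)) (fun i => v i.succ) x
    have key : ∑ S : Finset (Fin (N + 1)), (-1 : ℚ) ^ S.card * f (x - ∑ i ∈ S, v i) =
        ∑ S : Finset (Fin N), (-1 : ℚ) ^ S.card *
          (f (x - ∑ i ∈ S, v i.succ) - f (x - ∑ i ∈ S, v i.succ - v 0)) := by
      classical
      rw [sum_finset_succ, ← Finset.sum_add_distrib]
      refine Finset.sum_congr rfl fun S _ => ?_
      have h0 : (0 : Fin (N + 1)) ∉ S.map (Fin.succEmb N) := by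
        rw [Finset.mem_map]
        rintro ⟨j, _, hj⟩
        exact Fin.succ_ne_zero _ hj
      rw [Finset.card_insert_of_notMem h0, Finset.sum_insert h0, Finset.card_map, Finset.sum_map]
      have e : x - (v 0 + ∑ i ∈ S, v ((Fin.succEmb N) i)) = x - ∑ i ∈ S, v i.succ - v 0 := by
        simp only [Fin.coe_succEmb]
        abel
      rw [e, pow_succ]
      simp only [Fin.coe_succEmb]
      ring
    rw [key]
    exact h

/-- A polynomial of total degree at most `d` is a polynomial function of degree less than
`d + 1`. -/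
theorem polyLt_of_mvPolynomial {k : ℕ} (p : MvPolynomial (Fin k) ℚ) {d : ℕ}
    (hp : p.totalDegree ≤ d) :
    PolyLt (A := Fin k → ℤ) (d + 1) (fun n => MvPolynomial.eval (fun j => (n j : ℚ)) p) := by
  classical
  have hpow : ∀ (a : Fin k) (m : ℕ) (e : ℕ) (f : (Fin k → ℤ) → ℚ), PolyLt e f →
      PolyLt (e + m) (fun n => (n a : ℚ) ^ m * f n) := by
    intro a m
    induction m with
    | zero =>
      intro e f hf
      simpa using hf
    | succ m ih =>
      intro e f hf
      have h := (ih e f hf).mul_hom
        ((Int.castAddHom ℚ).comp (Pi.evalAddMonoidHom (fun _ : Fin k => ℤ) a))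
      have e1 : (fun n : Fin k → ℤ => (n a : ℚ) ^ (m + 1) * f n) = fun n =>
          ((Int.castAddHom ℚ).comp (Pi.evalAddMonoidHom (fun _ : Fin k => ℤ) a)) n *
            ((n a : ℚ) ^ m * f n) := by
        funext n
        change _ = (n a : ℚ) * _
        ring
      rw [e1]
      exact h
  have hmon : ∀ (s : Fin k →₀ ℕ) (t : Finset (Fin k)), PolyLt (A := Fin k → ℤ)
      (1 + ∑ i ∈ t, s i) (fun n => ∏ i ∈ t, (n i : ℚ) ^ s i) := by
    intro s t
    induction t using Finset.induction_on with
    | empty => simpa using PolyLt.const (A := Fin k → ℤ) 1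
    | insert a t ha ih =>
      have h := hpow a (s a) _ _ ih
      rw [Finset.sum_insert ha, add_comm (s a), ← add_assoc]
      have e1 : (fun n : Fin k → ℤ => ∏ i ∈ insert a t, (n i : ℚ) ^ s i) = fun n =>
          (n a : ℚ) ^ s a * ∏ i ∈ t, (n i : ℚ) ^ s i := by
        funext n
        rw [Finset.prod_insert ha]
      rw [e1]
      exact h
  have e : (fun n : Fin k → ℤ => MvPolynomial.eval (fun j => (n j : ℚ)) p) =
      ∑ s ∈ p.support, (p.coeff s) • fun n : Fin k → ℤ => ∏ i ∈ s.support, (n i : ℚ) ^ s i := by
    funext n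
    rw [MvPolynomial.eval_eq, Finset.sum_apply]
    rfl
  rw [e]
  refine PolyLt.sum _ fun s hs => (PolyLt.mono ?_ (hmon s s.support)).smul _
  have h1 := MvPolynomial.le_totalDegree hs
  have h2 : s.sum (fun _ e => e) = ∑ i ∈ s.support, s i := rfl
  rw [h2] at h1
  omega

end Vale.Agent.P299.G
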