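import Vale.Agent.P299.G.Glue

/-!
# Step (E1): subtracting the largest pull back of a divisor of the base

`P` are the primes of the resolution `Z'`, `P1 ⊆ P` those of the normal equidimensional model
`Z_1 → Y`, `Q` the primes of `Y`; `n = div σ + m₀ L` on `Z_1`.
-/

namespace Vale.Agent.P299.G2

section MinBase

variable {P Q : Type*}

/-- Let `rel x q m` say that the prime `x` lies over `q` with multiplicity `m ≥ 1`.  For a divisor
`n` there are `c ≥ 1` and a divisor `R` of the base such that `c n - φ^*R ≥ 0` on the primes over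
primes of the base, with equality for at least one prime over every `q`. -/
theorem exists_min_base (rel : P → Q → ℤ → Prop) (hpos : ∀ x q m, rel x q m → 1 ≤ m)
    (huniq : ∀ x q q' m m', rel x q m → rel x q' m' → q = q' ∧ m = m')
    (P1 : Set P) (hfin : ∀ q, {x | x ∈ P1 ∧ ∃ m, rel x q m}.Finite)
    (hne : ∀ q, ∃ x ∈ P1, ∃ m, rel x q m)
    (n : P → ℤ) (hn : {x | x ∈ P1 ∧ n x ≠ 0}.Finite) :
    ∃ c : ℕ, 1 ≤ c ∧ ∃ R : Q → ℤ, {q | R q ≠ 0}.Finite ∧
      (∀ x ∈ P1, ∀ q m, rel x q m → 0 ≤ c * n x - m * R q) ∧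
      ∀ q, ∃ x ∈ P1, ∃ m, rel x q m ∧ c * n x - m * R q = 0 := by
  classical
  -- the multiplicity of `x`
  let mult : P → ℤ := fun x => if h : ∃ q m, rel x q m then h.choose_spec.choose else 1
  have mult_eq : ∀ x q m, rel x q m → mult x = m := by
    intro x q m h
    have h' : ∃ q m, rel x q m := ⟨q, m, h⟩
    have e : mult x = h'.choose_spec.choose := by simp only [mult, dif_pos h']
    rw [e]
    exact (huniq x _ _ _ _ h'.choose_spec.choose_spec h).2
  have mult_pos : ∀ x, 1 ≤ mult x := by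
    intro x
    by_cases h : ∃ q m, rel x q m
    · obtain ⟨q, m, h⟩ := h
      rw [mult_eq x q m h]
      exact hpos x q m h
    · simp only [mult, dif_neg h]; exact le_rfl
  -- the common denominator
  let cz : ℤ := ∏ x ∈ hn.toFinset, mult x
  have hcz : 1 ≤ cz := by
    have : 0 < cz := Finset.prod_pos fun x _ => by linarith [mult_pos x]
    linarith
  have hdvd : ∀ x ∈ P1, mult x ∣ cz * n x := by
    intro x hx
    by_cases h0 : n x = 0
    · simp [h0]
    · have hmem : x ∈ hn.toFinset := by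
        rw [Set.Finite.mem_toFinset]; exact ⟨hx, h0⟩
      exact (Finset.dvd_prod_of_mem _ hmem).mul_right _
  obtain ⟨c, hc⟩ : ∃ c : ℕ, (c : ℤ) = cz := ⟨cz.toNat, Int.toNat_of_nonneg (by linarith)⟩
  -- the minimum over `q`
  have hmin : ∀ q, ∃ x ∈ P1, (∃ m, rel x q m) ∧
      ∀ x' ∈ P1, (∃ m, rel x' q m) → cz * n x / mult x ≤ cz * n x' / mult x' := by
    intro q
    obtain ⟨x₀, hx₀, m₀, h₀⟩ := hne q
    have hne' : (hfin q).toFinset.Nonempty := ⟨x₀, by
      rw [Set.Finite.mem_toFinset]; exact ⟨hx₀, m₀, h₀⟩⟩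
    obtain ⟨x, hx, hmin⟩ := Finset.exists_min_image (hfin q).toFinset
      (fun x => cz * n x / mult x) hne'
    rw [Set.Finite.mem_toFinset] at hx
    refine ⟨x, hx.1, hx.2, fun x' hx' h' => hmin x' ?_⟩
    rw [Set.Finite.mem_toFinset]
    exact ⟨hx', h'⟩
  choose w hwP hwrel hw using hmin
  refine ⟨c, by omega, fun q => cz * n (w q) / mult (w q), ?_, ?_, ?_⟩
  · -- finite support: `w` is injective and `n (w q) ≠ 0`
    have hinj : Function.Injective w := by
      intro q q' h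
      obtain ⟨m, hm⟩ := hwrel q
      obtain ⟨m', hm'⟩ := hwrel q'
      rw [← h] at hm'
      exact (huniq _ _ _ _ _ hm hm').1
    refine (hn.preimage (f := w) hinj.injOn).subset fun q hq => ?_
    refine ⟨hwP q, fun h0 => hq ?_⟩
    simp [h0]
  · intro x hx q m h
    have h1 := hw q x hx ⟨m, h⟩
    have hm := mult_eq x q m h
    have h2 : m * (cz * n x / mult x) = cz * n x := by
      rw [← hm]
      exact Int.mul_ediv_cancel' (hdvd x hx)
    have h3 : m * (cz * n (w q) / mult (w q)) ≤ m * (cz * n x / mult x) :=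
      mul_le_mul_of_nonneg_left h1 (by linarith [hpos x q m h])
    rw [hc]
    linarith
  · intro q
    obtain ⟨m, hm⟩ := hwrel q
    refine ⟨w q, hwP q, m, hm, ?_⟩
    have hm' := mult_eq _ q m hm
    have h2 : m * (cz * n (w q) / mult (w q)) = cz * n (w q) := by
      rw [← hm']
      exact Int.mul_ediv_cancel' (hdvd _ (hwP q))
    rw [hc, h2]; ring

end MinBase

section E1

variable {k K : Type*} [Field k] [Field K] [Algebra k K] {P Q : Type*}
  (O : Orders k K P) (KY : Subfield K) (ordY : Q → KY → ℤ)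

/-- The order at the prime `x` is trivial on `K_Y`: `x` is horizontal. -/
def Horiz (x : P) : Prop := ∀ g : KY, g ≠ 0 → O.ord x (g : K) = 0

/-- The local data of the model `Z' → Z_1 → Y`: for a prime `x` of `Z'`, `N x` is the set of the
primes of `Z_1` through the image of `x` in `Z_1` and `NY x` the set of the primes of `Y` through
the image of `x` in `Y`. `D` is the pull back to `Z'` of a Cartier divisor of `Z_1` if it is given
by a local equation at the image of `x`. -/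
def LocPrin (N : P → Set P) (D : P → ℤ) : Prop :=
  ∀ x, ∃ l : K, l ≠ 0 ∧ O.ord x l = D x ∧ ∀ w ∈ N x, O.ord w l = D w

/-- `R'` is the pull back of the divisor `R` of `Y`. -/
def PullBack (NY : P → Set Q) (R : Q → ℤ) (R' : P → ℤ) : Prop :=
  ∀ x, ∃ r : KY, r ≠ 0 ∧ (∀ q ∈ NY x, ordY q r = R q) ∧ R' x = O.ord x (r : K)

variable {O KY ordY} in
/-- `B = div σ + m₀ L - φ^*R` is effective on `Z_1`, hence its pull back to `Z'` is effective. -/
theorem effective_of_effective {N : P → Set P} {NY : P → Set Q}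
    (hN : ∀ x, ∀ w ∈ N x, Horiz O KY w ∨ ∃ q ∈ NY x, ∃ m, LiesOver O.ord KY ordY w q m)
    (hartogs : ∀ x (f : K), f ≠ 0 → (∀ w ∈ N x, 0 ≤ O.ord w f) → 0 ≤ O.ord x f)
    {L : P → ℤ} (hL : LocPrin O N L) {R : Q → ℤ} {R' : P → ℤ}
    (hR : PullBack O KY ordY NY R R') (m0 : ℕ) (σ : K) (hσ0 : σ ≠ 0)
    (hhor : ∀ x, ∀ w ∈ N x, Horiz O KY w → 0 ≤ O.ord w σ + m0 * L w)
    (hver : ∀ x, ∀ w ∈ N x, ∀ q m, LiesOver O.ord KY ordY w q m →
      0 ≤ O.ord w σ + m0 * L w - m * R q) (x : P) :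
    0 ≤ O.ord x σ + (m0 * L x - R' x) := by
  obtain ⟨l, hl0, hlx, hl⟩ := hL x
  obtain ⟨r, hr0, hr, hrx⟩ := hR x
  have hr0' : (r : K) ≠ 0 := fun h => hr0 (Subtype.ext h)
  have hpow : l ^ m0 ≠ 0 := pow_ne_zero m0 hl0
  have hb0 : σ * l ^ m0 ≠ 0 := mul_ne_zero hσ0 hpow
  have key : ∀ w, O.ord w (σ * l ^ m0 / (r : K)) =
      O.ord w σ + m0 * O.ord w l - O.ord w (r : K) := by
    intro w
    rw [O.ord_div w hb0 hr0', O.ord_mul w hσ0 hpow, O.ord_pow w hl0]
  have h := hartogs x (σ * l ^ m0 / (r : K)) (div_ne_zero hb0 hr0') (fun w hw => by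
    rw [key w, hl w hw]
    rcases hN x w hw with hh | ⟨q, hq, m, hm⟩
    · rw [hh r hr0]
      simpa using hhor x w hw hh
    · rw [hm.2 r hr0, hr q hq]
      exact hver x w hw q m hm)
  rw [key x, hlx, ← hrx] at h
  linarith

/-- The multiplicities and the prime below are determined. -/
theorem LiesOver.unique {O : Orders k K P} {KY : Subfield K} {ordY : Q → KY → ℤ}
    (hY : ∀ q, ∃ g : KY, g ≠ 0 ∧ ordY q g = 1)
    (hsep : ∀ q q', q ≠ q' → ∃ g : KY, g ≠ 0 ∧ ordY q g ≠ 0 ∧ ordY q' g = 0)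
    {x : P} {q q' : Q} {m m' : ℤ} (h : LiesOver O.ord KY ordY x q m)
    (h' : LiesOver O.ord KY ordY x q' m') : q = q' ∧ m = m' := by
  have hq : q = q' := by
    by_contra hne
    obtain ⟨g, hg0, h1, h2⟩ := hsep q q' hne
    have e1 := h.2 g hg0
    have e2 := h'.2 g hg0
    rw [h2, mul_zero] at e2
    rw [e2] at e1
    have hm := h.1
    rcases mul_eq_zero.mp e1.symm with h3 | h3
    · omega
    · exact h1 h3
  subst hq
  refine ⟨rfl, ?_⟩
  obtain ⟨g, hg0, h1⟩ := hY q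
  have e1 := h.2 g hg0
  have e2 := h'.2 g hg0
  rw [h1, mul_one] at e1 e2
  rw [← e1, e2]

/-- **Step (E1).** From a rational section `σ` of `m₀ L` whose horizontal part is effective one gets
`c ≥ 1`, a divisor `R` of `Y` and the section `σ^c` of `c m₀ L' - φ^*R`, such that over every prime
`q` of `Y` there is a prime at which this section does not vanish. -/
theorem exists_E1 {N : P → Set P} {NY : P → Set Q} {P1 : Set P}
    (hNP : ∀ x, N x ⊆ P1)
    (hN : ∀ x, ∀ w ∈ N x, Horiz O KY w ∨ ∃ q ∈ NY x, ∃ m, LiesOver O.ord KY ordY w q m)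
    (hartogs : ∀ x (f : K), f ≠ 0 → (∀ w ∈ N x, 0 ≤ O.ord w f) → 0 ≤ O.ord x f)
    (hself : ∀ w ∈ P1, ∀ q m, LiesOver O.ord KY ordY w q m → q ∈ NY w)
    (hY : ∀ q, ∃ g : KY, g ≠ 0 ∧ ordY q g = 1)
    (hsep : ∀ q q', q ≠ q' → ∃ g : KY, g ≠ 0 ∧ ordY q g ≠ 0 ∧ ordY q' g = 0)
    (hfin : ∀ q, {x | x ∈ P1 ∧ ∃ m, LiesOver O.ord KY ordY x q m}.Finite)
    (hne : ∀ q, ∃ x ∈ P1, ∃ m, LiesOver O.ord KY ordY x q m)
    {L : P → ℤ} (hL : LocPrin O N L) (m0 : ℕ) (hm0 : 1 ≤ m0) (σ : K) (hσ0 : σ ≠ 0)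
    (hsupp : {x | x ∈ P1 ∧ O.ord x σ + m0 * L x ≠ 0}.Finite)
    (hhor : ∀ w ∈ P1, Horiz O KY w → 0 ≤ O.ord w σ + m0 * L w) :
    ∃ m1 : ℕ, 1 ≤ m1 ∧ ∃ τ : K, τ ≠ 0 ∧ ∃ R : Q → ℤ, {q | R q ≠ 0}.Finite ∧
      ∀ R' : P → ℤ, PullBack O KY ordY NY R R' →
        (∀ x, 0 ≤ O.ord x τ + (m1 * L x - R' x)) ∧
        ∀ q, ∃ w ∈ P1, ∃ m, LiesOver O.ord KY ordY w q m ∧ R' w = m * R q ∧
          O.ord w τ + (m1 * L w - R' w) = 0 := by
  obtain ⟨c, hc, R, hRf, hge, heq⟩ := exists_min_base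
    (fun x q m => LiesOver O.ord KY ordY x q m) (fun x q m h => h.1)
    (fun x q q' m m' h h' => LiesOver.unique hY hsep h h') P1 hfin hne
    (fun x => O.ord x σ + m0 * L x) hsupp
  have hcm : ((c * m0 : ℕ) : ℤ) = c * m0 := by push_cast; ring
  refine ⟨c * m0, Nat.mul_pos hc hm0, σ ^ c, pow_ne_zero c hσ0, R, hRf, fun R' hR' => ⟨?_, ?_⟩⟩
  · intro x
    have := effective_of_effective (O := O) (KY := KY) (ordY := ordY) hN hartogs hL hR' (c * m0)
      (σ ^ c) (pow_ne_zero c hσ0) (fun x w hw hh => ?_) (fun x w hw q m h => ?_) x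
    · exact this
    · rw [O.ord_pow w hσ0, hcm]
      have h1 := hhor w (hNP x hw) hh
      have h2 : 0 ≤ (c : ℤ) * (O.ord w σ + m0 * L w) := mul_nonneg (by positivity) h1
      linarith
    · rw [O.ord_pow w hσ0, hcm]
      have h1 := hge w (hNP x hw) q m h
      linarith
  · intro q
    obtain ⟨w, hw, m, hm, h⟩ := heq q
    have hRw : R' w = m * R q := by
      obtain ⟨r, hr0, hr, hrw⟩ := hR' w
      rw [hrw, hm.2 r hr0, hr q (hself w hw q m hm)]
    refine ⟨w, hw, m, hm, hRw, ?_⟩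
    rw [O.ord_pow w hσ0, hcm, hRw]
    linarith

end E1

section Model

variable {P Q : Type*}

/-- **Step (E1)** in the form of the model black box.  `W` is the set of the primes of `Z'` that are
not contracted in the equidimensional model; `s` is the pull back of `div σ + m₀ L`; `star` says
that `c s - φ^*R` is effective as soon as its coefficients at the primes of `W` are nonnegative. -/
theorem exists_E1_model (hor : P → Prop) (rel : P → Q → ℤ → Prop)
    (hpos : ∀ x q m, rel x q m → 1 ≤ m)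
    (huniq : ∀ x q q' m m', rel x q m → rel x q' m' → q = q' ∧ m = m')
    (W : Set P) (hW : ∀ w ∈ W, hor w ∨ ∃ q m, rel w q m)
    (hfin : ∀ q, {x | x ∈ W ∧ ∃ m, rel x q m}.Finite)
    (hne : ∀ q, ∃ x ∈ W, ∃ m, rel x q m)
    (s : P → ℤ) (hs : {x | x ∈ W ∧ s x ≠ 0}.Finite) (hs0 : ∀ w ∈ W, hor w → 0 ≤ s w)
    (IsPull : (Q → ℤ) → (P → ℤ) → Prop)
    (pull_rel : ∀ R R', IsPull R R' → ∀ x q m, rel x q m → R' x = m * R q)
    (pull_hor : ∀ R R', IsPull R R' → ∀ x, hor x → R' x = 0)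
    (star : ∀ (c : ℕ) (R : Q → ℤ) (R' : P → ℤ), {q | R q ≠ 0}.Finite → IsPull R R' →
      (∀ w ∈ W, 0 ≤ c * s w - R' w) → ∀ x, 0 ≤ c * s x - R' x) :
    ∃ c : ℕ, 1 ≤ c ∧ ∃ R : Q → ℤ, {q | R q ≠ 0}.Finite ∧
      ∀ R' : P → ℤ, IsPull R R' → (∀ x, 0 ≤ c * s x - R' x) ∧
        ∀ q, ∃ w ∈ W, ∃ m, rel w q m ∧ R' w = m * R q ∧ c * s w - R' w = 0 := by
  obtain ⟨c, hc, R, hRf, hge, heq⟩ := exists_min_base rel hpos huniq W hfin hne s hs
  refine ⟨c, hc, R, hRf, fun R' hR' => ⟨star c R R' hRf hR' fun w hw => ?_, fun q => ?_⟩⟩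
  · rcases hW w hw with h | ⟨q, m, h⟩
    · rw [pull_hor R R' hR' w h, sub_zero]
      exact mul_nonneg (by positivity) (hs0 w hw h)
    · rw [pull_rel R R' hR' w q m h]
      exact hge w hw q m h
  · obtain ⟨w, hw, m, hm, h⟩ := heq q
    refine ⟨w, hw, m, hm, pull_rel R R' hR' w q m hm, ?_⟩
    rw [pull_rel R R' hR' w q m hm]
    exact h

end Model

end Vale.Agent.P299.G2
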