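import Mathlib.RingTheory.Valuation.Basic
import Mathlib.FieldTheory.IntermediateField.Basic
import Mathlib.LinearAlgebra.FiniteDimensional.Basic
import Mathlib.LinearAlgebra.Dimension.Finite
import Mathlib.Algebra.Polynomial.Roots
import Mathlib.Tactic

/-!
Abstract glue for the end of the proof (blocks (a)-(d) of note 4292, (E1)-(E5) of note 4801).

`Orders k K P`: a family of integer valued orders on the field `K ⊇ k`, indexed by the primes `P`
(for a normal variety: `ord f x`, `x` of codimension one; the value at `f = 0` is junk).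
`O.H0 D`: the `k`-subspace of `f` with `ord_x f + D_x ≥ 0` for all `x`.
-/

namespace Vale.Agent.P299.G2

open Polynomial

/-- A family of orders on the field `K`, trivial on `k`. -/
structure Orders (k K : Type*) [Field k] [Field K] [Algebra k K] (P : Type*) where
  /-- the order of `f` at `x` -/
  ord : P → K → ℤ
  ord_mul : ∀ (x : P) {f g : K}, f ≠ 0 → g ≠ 0 → ord x (f * g) = ord x f + ord x g
  ord_add : ∀ (x : P) {f g : K}, f ≠ 0 → g ≠ 0 → f + g ≠ 0 →
    min (ord x f) (ord x g) ≤ ord x (f + g)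
  ord_algebraMap : ∀ (x : P) {c : k}, c ≠ 0 → ord x (algebraMap k K c) = 0

namespace Orders

variable {k K : Type*} [Field k] [Field K] [Algebra k K] {P : Type*} (O : Orders k K P)

lemma ord_one (x : P) : O.ord x 1 = 0 := by
  have := O.ord_algebraMap x (c := 1) one_ne_zero
  simpa using this

lemma ord_pow (x : P) {f : K} (hf : f ≠ 0) (n : ℕ) : O.ord x (f ^ n) = n * O.ord x f := by
  induction n with
  | zero => simp [O.ord_one]
  | succ n ih =>
    rw [pow_succ, O.ord_mul x (pow_ne_zero n hf) hf, ih]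
    push_cast; ring

lemma ord_inv (x : P) {f : K} (hf : f ≠ 0) : O.ord x f⁻¹ = - O.ord x f := by
  have h := O.ord_mul x hf (inv_ne_zero hf)
  rw [mul_inv_cancel₀ hf, O.ord_one] at h
  omega

lemma ord_div (x : P) {f g : K} (hf : f ≠ 0) (hg : g ≠ 0) :
    O.ord x (f / g) = O.ord x f - O.ord x g := by
  rw [div_eq_mul_inv, O.ord_mul x hf (inv_ne_zero hg), O.ord_inv x hg]; ring

/-- Functions with poles at most `D` at the primes in `S`. -/
def H0on (S : Set P) (D : P → ℤ) : Submodule k K where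
  carrier := {f | f = 0 ∨ ∀ x ∈ S, 0 ≤ O.ord x f + D x}
  zero_mem' := Or.inl rfl
  add_mem' := by
    intro f g hf hg
    by_cases hf0 : f = 0
    · simpa [hf0] using hg
    by_cases hg0 : g = 0
    · simpa [hg0] using hf
    by_cases h0 : f + g = 0
    · exact Or.inl h0
    refine Or.inr fun x hx => ?_
    have h1 := (hf.resolve_left hf0) x hx
    have h2 := (hg.resolve_left hg0) x hx
    have h3 := O.ord_add x hf0 hg0 h0
    rcases min_le_iff.mp h3 with h | h
    · linarith
    · linarith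
  smul_mem' := by
    intro c f hf
    by_cases hc : c = 0
    · exact Or.inl (by simp [hc])
    rcases hf with hf | hf
    · exact Or.inl (by simp [hf])
    by_cases hf0 : f = 0
    · exact Or.inl (by simp [hf0])
    refine Or.inr fun x hx => ?_
    have hc' : algebraMap k K c ≠ 0 := by
      simpa using hc
    rw [Algebra.smul_def, O.ord_mul x hc' hf0, O.ord_algebraMap x hc, zero_add]
    exact hf x hx

/-- Functions with poles at most `D`. -/
abbrev H0 (D : P → ℤ) : Submodule k K := O.H0on Set.univ D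

lemma mem_H0on {S : Set P} {D : P → ℤ} {f : K} :
    f ∈ O.H0on S D ↔ f = 0 ∨ ∀ x ∈ S, 0 ≤ O.ord x f + D x := Iff.rfl

lemma mem_H0 {D : P → ℤ} {f : K} :
    f ∈ O.H0 D ↔ f = 0 ∨ ∀ x, 0 ≤ O.ord x f + D x := by
  simp [mem_H0on]

lemma H0on_anti {S T : Set P} (h : S ⊆ T) (D : P → ℤ) : O.H0on T D ≤ O.H0on S D := by
  intro f hf
  rcases hf with hf | hf
  · exact Or.inl hf
  · exact Or.inr fun x hx => hf x (h hx)

end Orders

section Nonvanishing

variable {k K : Type*} [Field k] [Field K] [Algebra k K] {P : Type*} (O : Orders k K P)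

/-- A polynomial which does not vanish at `0` does not vanish at some positive integer. -/
lemma exists_eval_ne_zero (p : ℚ[X]) (h0 : p.eval 0 ≠ 0) : ∃ j : ℕ, 1 ≤ j ∧ p.eval (j : ℚ) ≠ 0 := by
  by_contra h
  push Not at h
  have hp : p ≠ 0 := by
    rintro rfl
    simp at h0
  have hinf : Set.Infinite {x : ℚ | p.IsRoot x} := by
    have hsub : Set.range (fun n : ℕ => ((n + 1 : ℕ) : ℚ)) ⊆ {x : ℚ | p.IsRoot x} := by
      rintro _ ⟨n, rfl⟩
      exact h (n + 1) (by omega)
    refine Set.Infinite.mono hsub (Set.infinite_range_of_injective ?_)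
    intro a b hab
    have : ((a + 1 : ℕ) : ℚ) = ((b + 1 : ℕ) : ℚ) := hab
    have h' : a + 1 = b + 1 := by exact_mod_cast this
    omega
  exact hinf (Polynomial.finite_setOfPred_isRoot hp)

/-- `(E5)` and the push forward to `Z`.  `Z'` has primes `P`, the primes of `Z` are `PZ ⊆ P`
(the non exceptional ones), `E = K_{Z'/Z} ≥ 0` is zero on `PZ`, `R'` is the pull back of a divisor
of the base, `σ` a section of `m0 L' - R'`.  If `h⁰(Z', E + j R')` is a polynomial in `j ≥ 0` then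
some `j m0 L`, `j ≥ 1`, has a section on `Z`. -/
theorem nonvanishing_of_poly (PZ : Set P) (L E R : P → ℤ) (m0 : ℕ)
    (hE0 : ∀ x, 0 ≤ E x) (hE : ∀ x ∈ PZ, E x = 0)
    (hconst : ∀ f : K, f ≠ 0 → (∀ x ∈ PZ, 0 ≤ O.ord x f) → f ∈ Set.range (algebraMap k K))
    (σ : K) (hσ0 : σ ≠ 0) (hσ : ∀ x, 0 ≤ O.ord x σ + (m0 * L x - R x))
    (p : ℚ[X])
    (hp : ∀ j : ℕ, (Module.finrank k (O.H0 (fun x => E x + j * R x)) : ℚ) = p.eval (j : ℚ)) :
    ∃ j : ℕ, 1 ≤ j ∧ ∃ f : K, f ≠ 0 ∧ ∀ x ∈ PZ, 0 ≤ O.ord x f + j * (m0 * L x) := by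
  -- `h⁰(E) = 1`
  have hone : O.H0 (fun x => E x + (0 : ℕ) * R x) = Submodule.span k {(1 : K)} := by
    apply le_antisymm
    · intro f hf
      by_cases hf0 : f = 0
      · simp [hf0]
      have hf' := (O.mem_H0.mp hf).resolve_left hf0
      obtain ⟨c, hc⟩ := hconst f hf0 (fun x hx => by
        have := hf' x
        simpa [hE x hx] using this)
      rw [Submodule.mem_span_singleton]
      exact ⟨c, by rw [Algebra.smul_def, mul_one, hc]⟩
    · rw [Submodule.span_singleton_le_iff_mem, O.mem_H0]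
      refine Or.inr fun x => ?_
      rw [O.ord_one]
      simpa using hE0 x
  have h1 : p.eval 0 = 1 := by
    have h := hp 0
    rw [hone, finrank_span_singleton (one_ne_zero)] at h
    simpa using h.symm
  obtain ⟨j, hj1, hj⟩ := exists_eval_ne_zero p (by rw [h1]; exact one_ne_zero)
  have hne : O.H0 (fun x => E x + j * R x) ≠ ⊥ := by
    intro hbot
    apply hj
    rw [← hp j, hbot]
    simp
  obtain ⟨f, hf, hf0⟩ := Submodule.exists_mem_ne_zero_of_ne_bot hne
  have hf' := (O.mem_H0.mp hf).resolve_left hf0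
  refine ⟨j, hj1, f * σ ^ j, mul_ne_zero hf0 (pow_ne_zero j hσ0), fun x hx => ?_⟩
  rw [O.ord_mul x hf0 (pow_ne_zero j hσ0), O.ord_pow x hσ0]
  have h2 := hf' x
  have h3 := hσ x
  have h4 : 0 ≤ (j : ℤ) * (O.ord x σ + (m0 * L x - R x)) :=
    mul_nonneg (by positivity) h3
  rw [hE x hx] at h2
  have h5 : (j : ℤ) * (O.ord x σ + (m0 * L x - R x)) =
      j * O.ord x σ + j * (m0 * L x) - j * R x := by ring
  rw [h5] at h4
  linarith

end Nonvanishing

section RankOne

variable {k K : Type*} [Field k] [Field K] [Algebra k K] {P Q : Type*}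
  (O : Orders k K P) (KY : Subfield K)

/-- The relation between the primes of `Z'` and the primes of `Y`: `x` lies over `q` with
multiplicity `m ≥ 1`. -/
def LiesOver {P Q : Type*} (ord : P → K → ℤ) (KY : Subfield K) (ordY : Q → KY → ℤ)
    (x : P) (q : Q) (m : ℤ) : Prop :=
  1 ≤ m ∧ ∀ g : KY, g ≠ 0 → ord x (g : K) = m * ordY q g

/-- `(E2)`: a rational function `f` with poles at most `E + j m0 L'` on the horizontal primes and
at `W_q` is `g σ^j` with `g ∈ K_Y` and `ord_q g + j R_q + ⌊E_{W_q} / m⌋ ≥ 0`. -/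
theorem ord_base_of_section (ordY : Q → KY → ℤ) (L E R' : P → ℤ) (R : Q → ℤ) (m0 j : ℕ)
    (σ : K) (hσ0 : σ ≠ 0) (f : K) (hf0 : f ≠ 0) (hfKY : f / σ ^ j ∈ KY)
    (q : Q) (x : P) (m : ℤ) (hx : LiesOver O.ord KY ordY x q m)
    (hR : R' x = m * R q)
    (hσx : O.ord x σ + (m0 * L x - R' x) = 0)
    (hf : 0 ≤ O.ord x f + (E x + j * (m0 * L x))) :
    0 ≤ ordY q ⟨f / σ ^ j, hfKY⟩ + (j * R q + E x / m) := by
  have hm : (0 : ℤ) < m := lt_of_lt_of_le zero_lt_one hx.1
  have hg0 : f / σ ^ j ≠ 0 := div_ne_zero hf0 (pow_ne_zero j hσ0)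
  have hg : O.ord x (f / σ ^ j) = m * ordY q ⟨f / σ ^ j, hfKY⟩ :=
    hx.2 ⟨f / σ ^ j, hfKY⟩ (by
      intro h
      exact hg0 (congrArg Subtype.val h))
  rw [O.ord_div x hf0 (pow_ne_zero j hσ0), O.ord_pow x hσ0] at hg
  set y := ordY q ⟨f / σ ^ j, hfKY⟩ with hy
  have h1 : O.ord x σ = m * R q - m0 * L x := by rw [hR] at hσx; linarith
  have h2 : 0 ≤ m * (y + j * R q) + E x := by
    have : O.ord x f = m * y + j * (m * R q - m0 * L x) := by rw [h1] at hg; linarith
    rw [this] at hf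
    have e : m * y + j * (m * R q - m0 * L x) + (E x + j * (m0 * L x)) =
        m * (y + j * R q) + E x := by ring
    rwa [e] at hf
  have h3 : -(y + j * R q) ≤ E x / m := by
    rw [Int.le_ediv_iff_mul_le hm]
    linarith
  linarith

/-- Converse of `ord_base_of_section`: `g σ^j` has poles at most `E + j m0 L'` at `x` as soon as
`g` has poles at most `E + j R'` at `x`. -/
theorem section_of_base (L E R' : P → ℤ) (m0 j : ℕ) (σ : K) (hσ0 : σ ≠ 0)
    (g : K) (hg0 : g ≠ 0) (x : P)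
    (hσ : 0 ≤ O.ord x σ + (m0 * L x - R' x)) (A : ℤ)
    (hg : 0 ≤ O.ord x g + (E x + j * R' x + A)) :
    0 ≤ O.ord x (g * σ ^ j) + (E x + j * (m0 * L x) + A) := by
  rw [O.ord_mul x hg0 (pow_ne_zero j hσ0), O.ord_pow x hσ0]
  have h4 : 0 ≤ (j : ℤ) * (O.ord x σ + (m0 * L x - R' x)) :=
    mul_nonneg (by positivity) hσ
  have h5 : (j : ℤ) * (O.ord x σ + (m0 * L x - R' x)) =
      j * O.ord x σ + j * (m0 * L x) - j * R' x := by ring
  rw [h5] at h4
  linarith

end RankOne

section Span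

variable {K : Type*} [Field K]

/-- If `u ≠ 0` lies in the span of a set `S` over a ring `A` on which the order `v` is
nonnegative, then some `s ∈ S` has order at most that of `u`. -/
theorem exists_ord_le_of_mem_span (v : K → ℤ)
    (v_mul : ∀ {f g : K}, f ≠ 0 → g ≠ 0 → v (f * g) = v f + v g)
    (v_add : ∀ {f g : K}, f ≠ 0 → g ≠ 0 → f + g ≠ 0 → min (v f) (v g) ≤ v (f + g))
    (A : Subring K) (hA : ∀ a ∈ A, a ≠ 0 → 0 ≤ v a) (S : Set K) {u : K}
    (hu : u ∈ Submodule.span A S) (hu0 : u ≠ 0) : ∃ s ∈ S, s ≠ 0 ∧ v s ≤ v u := by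
  have key : ∀ u ∈ Submodule.span A S, u = 0 ∨ ∃ s ∈ S, s ≠ 0 ∧ v s ≤ v u := by
    intro u hu
    refine Submodule.span_induction (p := fun u _ => u = 0 ∨ ∃ s ∈ S, s ≠ 0 ∧ v s ≤ v u)
      ?_ ?_ ?_ ?_ hu
    · intro x hx
      by_cases h0 : x = 0
      · exact Or.inl h0
      · exact Or.inr ⟨x, hx, h0, le_rfl⟩
    · exact Or.inl rfl
    · intro x y _ _ hx hy
      by_cases hx0 : x = 0
      · simpa [hx0] using hy
      by_cases hy0 : y = 0
      · simpa [hy0] using hx
      by_cases h0 : x + y = 0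
      · exact Or.inl h0
      have h := v_add hx0 hy0 h0
      rcases min_le_iff.mp h with h' | h'
      · obtain ⟨s, hs, hs0, hle⟩ := hx.resolve_left hx0
        exact Or.inr ⟨s, hs, hs0, hle.trans h'⟩
      · obtain ⟨s, hs, hs0, hle⟩ := hy.resolve_left hy0
        exact Or.inr ⟨s, hs, hs0, hle.trans h'⟩
    · intro a x _ hx
      by_cases h0 : a • x = 0
      · exact Or.inl h0
      have ha0 : (a : K) ≠ 0 := by
        intro h
        apply h0
        rw [Subring.smul_def, h]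
        simp
      have hx0 : x ≠ 0 := by
        intro h
        apply h0
        simp [h]
      obtain ⟨s, hs, hs0, hle⟩ := hx.resolve_left hx0
      refine Or.inr ⟨s, hs, hs0, ?_⟩
      rw [Subring.smul_def, smul_eq_mul, v_mul ha0 hx0]
      have := hA a a.2 ha0
      linarith
  exact (key u hu).resolve_left hu0

end Span

section Asymptotic

variable {K : Type*} [Field K] (KY : Subfield K)

/-- `(E3)`: `S` = global sections of `V_j ⊗ A^a` (functions on `Z'`), all of the form `g σ^j` with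
`g ∈ K_Y`; they generate the stalk at `y` over the local ring `B ⊆ K_Y`; `v` is an order of `K_Y`
which is nonnegative on `B`.  If `g₀ σ^j` is in the stalk then there is a global section `g σ^j`
with `v g ≤ v g₀`. -/
theorem exists_section_ord_le (v : KY → ℤ)
    (v_mul : ∀ {f g : KY}, f ≠ 0 → g ≠ 0 → v (f * g) = v f + v g)
    (v_add : ∀ {f g : KY}, f ≠ 0 → g ≠ 0 → f + g ≠ 0 → min (v f) (v g) ≤ v (f + g))
    (B : Subring KY) (hB : ∀ a ∈ B, a ≠ 0 → 0 ≤ v a) (S : Set K) (τ : K) (hτ : τ ≠ 0)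
    (hS : ∀ s ∈ S, s ≠ 0 → s / τ ∈ KY) (g₀ : KY) (hg₀ : g₀ ≠ 0)
    (hu : (g₀ : K) * τ ∈ Submodule.span B S) :
    ∃ g : KY, g ≠ 0 ∧ (g : K) * τ ∈ S ∧ v g ≤ v g₀ := by
  have key : ∀ u ∈ Submodule.span B S,
      ∃ g ∈ Submodule.span B {g : KY | (g : K) * τ ∈ S}, u = (g : K) * τ := by
    intro u hu
    refine Submodule.span_induction
      (p := fun u _ => ∃ g ∈ Submodule.span B {g : KY | (g : K) * τ ∈ S}, u = (g : K) * τ)
      ?_ ?_ ?_ ?_ hu
    · intro x hx
      by_cases h0 : x = 0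
      · exact ⟨0, Submodule.zero_mem _, by simp [h0]⟩
      · refine ⟨⟨x / τ, hS x hx h0⟩, Submodule.subset_span ?_, ?_⟩
        · change x / τ * τ ∈ S
          rwa [div_mul_cancel₀ x hτ]
        · change x = x / τ * τ
          rw [div_mul_cancel₀ x hτ]
    · exact ⟨0, Submodule.zero_mem _, by simp⟩
    · rintro x y _ _ ⟨a, ha, rfl⟩ ⟨b, hb, rfl⟩
      exact ⟨a + b, Submodule.add_mem _ ha hb, by push_cast; ring⟩
    · rintro c x _ ⟨a, ha, rfl⟩
      refine ⟨c • a, Submodule.smul_mem _ c ha, ?_⟩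
      have h1 : c • ((a : K) * τ) = ((c : KY) : K) * ((a : K) * τ) := rfl
      have h2 : ((c • a : KY) : K) = ((c : KY) : K) * (a : K) := rfl
      rw [h1, h2, mul_assoc]
  obtain ⟨g, hg, hgu⟩ := key _ hu
  have hgg : g = g₀ := by
    have : (g₀ : K) = (g : K) := mul_right_cancel₀ hτ hgu
    exact Subtype.ext this.symm
  subst hgg
  obtain ⟨s, hs, hs0, hle⟩ := exists_ord_le_of_mem_span v v_mul v_add B hB
    {g : KY | (g : K) * τ ∈ S} hg hg₀
  exact ⟨s, hs0, hs, hle⟩

end Asymptotic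

end Vale.Agent.P299.G2
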