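import Mathlib.Algebra.Group.ForwardDiff
import Mathlib.Analysis.SpecialFunctions.Choose
import Mathlib.Algebra.BigOperators.Group.Finset.Powerset
import Mathlib.Algebra.BigOperators.Fin
import Mathlib.Algebra.BigOperators.Field
import Mathlib.Tactic.Ring
import Mathlib.Tactic.Linarith
import Mathlib.Tactic.Module

/-!
# The growth of functions with constant `d`-th difference
-/

open Finset Filter Topology
open scoped Nat

namespace Vale.Agent.P299.G

variable {A : Type*} [AddCommGroup A]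

theorem tendsto_choose_div (j : ℕ) :
    Tendsto (fun k : ℕ => (k.choose j : ℝ) / (k : ℝ) ^ j) atTop (𝓝 (1 / (j ! : ℝ))) := by
  have h := isEquivalent_choose j
  have h0 : ∀ᶠ k : ℕ in atTop, (k : ℝ) ^ j / (j ! : ℝ) ≠ 0 := by
    filter_upwards [eventually_gt_atTop 0] with k hk
    have : (0 : ℝ) < k := by exact_mod_cast hk
    positivity
  have h1 := (Asymptotics.isEquivalent_iff_tendsto_one h0).1 h
  have h2 := h1.div_const (j ! : ℝ)
  refine h2.congr' ?_
  filter_upwards [eventually_gt_atTop 0] with k hk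
  have : (0 : ℝ) < k := by exact_mod_cast hk
  simp only [Pi.div_apply]
  field_simp

theorem tendsto_choose_div_of_lt {j d : ℕ} (h : j < d) :
    Tendsto (fun k : ℕ => (k.choose j : ℝ) / (k : ℝ) ^ d) atTop (𝓝 0) := by
  obtain ⟨e, rfl⟩ := Nat.exists_eq_add_of_lt h
  have h1 := tendsto_choose_div j
  have h2 : Tendsto (fun k : ℕ => ((k : ℝ) ^ (e + 1))⁻¹) atTop (𝓝 0) :=
    tendsto_inv_atTop_zero.comp ((tendsto_pow_atTop (Nat.succ_ne_zero e)).comp
      tendsto_natCast_atTop_atTop)
  have h3 := h1.mul h2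
  rw [mul_zero] at h3
  refine h3.congr fun k => ?_
  rw [add_assoc, pow_add (k : ℝ) j, div_mul_eq_div_div, div_eq_mul_inv (_ / _)]

/-- A function whose `d`-th difference is constant. -/
theorem tendsto_of_fwdDiff {f : ℕ → ℤ} {d : ℕ} {c : ℤ}
    (h : ∀ k, (fwdDiff 1)^[d] f k = c) :
    Tendsto (fun k : ℕ => (f k : ℝ) / (k : ℝ) ^ d) atTop (𝓝 ((c : ℝ) / (d ! : ℝ))) := by
  have hz : ∀ j, d < j → (fwdDiff 1)^[j] f = fun _ => 0 := by
    intro j hj
    obtain ⟨e, rfl⟩ := Nat.exists_eq_add_of_lt hj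
    have h1 : d + e + 1 = (e + 1) + d := by ring
    have h2 : (fwdDiff 1)^[d] f = fun _ : ℕ => c := funext h
    rw [h1, Function.iterate_add_apply, h2]
    clear h1 hj
    induction e with
    | zero => simp
    | succ e ih =>
      rw [Function.iterate_succ_apply', ih]
      simp
  have hN : ∀ k : ℕ, d ≤ k → (f k : ℝ) =
      ∑ j ∈ range (d + 1), (k.choose j : ℝ) * ((fwdDiff 1)^[j] f 0 : ℤ) := by
    intro k hk
    have h1 := shift_eq_sum_fwdDiff_iter (1 : ℕ) f k 0
    rw [zero_add, smul_eq_mul, mul_one] at h1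
    rw [h1, ← Finset.sum_range_add_sum_Ico _ (show d + 1 ≤ k + 1 by omega),
      Finset.sum_eq_zero (s := Finset.Ico (d + 1) (k + 1)), add_zero]
    · rw [Int.cast_sum]
      refine Finset.sum_congr rfl fun j _ => ?_
      rw [nsmul_eq_mul, Int.cast_mul, Int.cast_natCast]
    · intro j hj
      rw [Finset.mem_Ico] at hj
      rw [hz j (by omega), smul_zero]
  have h1 : Tendsto (fun k : ℕ => ∑ j ∈ range (d + 1),
      (k.choose j : ℝ) / (k : ℝ) ^ d * ((fwdDiff 1)^[j] f 0 : ℤ)) atTop
      (𝓝 (∑ j ∈ range (d + 1), if j = d then (1 / (d ! : ℝ)) * c else 0)) := by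
    refine tendsto_finsetSum _ fun j hj => ?_
    rw [Finset.mem_range] at hj
    split_ifs with hjd
    · subst hjd
      rw [h 0]
      exact (tendsto_choose_div j).mul_const _
    · have := (tendsto_choose_div_of_lt (show j < d by omega)).mul_const
        (((fwdDiff 1)^[j] f 0 : ℤ) : ℝ)
      rwa [zero_mul] at this
  rw [Finset.sum_ite_eq' (range (d + 1)) d, if_pos (Finset.mem_range.2 (Nat.lt_succ_self d))] at h1
  have e : (1 / (d ! : ℝ)) * c = (c : ℝ) / (d ! : ℝ) := by ring
  rw [e] at h1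
  refine h1.congr' ?_
  filter_upwards [eventually_ge_atTop d] with k hk
  rw [hN k hk, Finset.sum_div]
  exact Finset.sum_congr rfl fun j _ => by ring

/-- A function on a group all of whose `d`-th differences in the direction `N` are equal to `c`. -/
theorem tendsto_of_cube {g : A → ℤ} {N : A} {d : ℕ} {c : ℤ}
    (h : ∀ y, ∑ S : Finset (Fin d), (-1 : ℤ) ^ S.card * g (y - S.card • N) = c) (y : A) :
    Tendsto (fun k : ℕ => (g (y + k • N) : ℝ) / (k : ℝ) ^ d) atTop (𝓝 ((c : ℝ) / (d ! : ℝ))) := by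
  refine tendsto_of_fwdDiff (f := fun k => g (y + k • N)) fun k => ?_
  rw [fwdDiff_iter_eq_sum_shift, ← h (y + (k + d) • N)]
  have h4 := Finset.sum_powerset_apply_card
    (fun j => (-1 : ℤ) ^ j * g (y + (k + d) • N - j • N)) (x := (univ : Finset (Fin d)))
  rw [Finset.powerset_univ, Finset.card_univ, Fintype.card_fin] at h4
  rw [h4, ← Finset.sum_range_reflect]
  refine Finset.sum_congr rfl fun j hj => ?_
  rw [Finset.mem_range] at hj
  have hj' : j ≤ d := by omega
  have e1 : d + 1 - 1 - j = d - j := by omega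
  have e2 : d - (d - j) = j := by omega
  have e3 : (k + (d - j) • 1) • N = (k + d) • N - j • N := by
    rw [smul_eq_mul, mul_one, eq_sub_iff_add_eq, ← add_smul]
    congr 1
    omega
  rw [e1, e2, e3, Nat.choose_symm hj', nsmul_eq_mul, smul_eq_mul]
  rw [← add_sub_assoc]
  ring

end Vale.Agent.P299.G
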