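import Vale.Agent.P299.G.KY

/-!
# Horizontal coefficients of effective divisors in the classes `P + M L`

`L` has degree `0` and `Pc` has degree at most `0`; we are given functions `e` with
`div e + Pc + M L ≥ 0` for arbitrarily large `M`.
-/

open WithZero

namespace Vale.Agent.P299.G

namespace DivData

variable {k F : Type*} [Field k] [Field F] [Algebra k F] {P : Type*} (X : DivData k F P)

/-- `e` is a nonzero section of the class `Pc + M L`. -/
def Good (Pc L : P → ℤ) (M : ℕ) (e : F) : Prop :=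
  e ≠ 0 ∧ ∀ D, 0 ≤ X.ord D e + (Pc D + M * L D)

/-- The degree of a divisor. -/
noncomputable def deg (N : P → ℤ) : ℝ := ∑ᶠ D, (N D : ℝ) * X.delta D

lemma deg_supp {N : P → ℤ} (hN : {D | N D ≠ 0}.Finite) :
    (Function.support fun D => (N D : ℝ) * X.delta D).Finite := by
  refine hN.subset fun D hD => ?_
  intro h0
  apply hD
  simp [h0]

lemma deg_add {N N' : P → ℤ} (hN : {D | N D ≠ 0}.Finite) (hN' : {D | N' D ≠ 0}.Finite) :
    X.deg (fun D => N D + N' D) = X.deg N + X.deg N' := by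
  unfold deg
  rw [← finsum_add_distrib (X.deg_supp hN) (X.deg_supp hN')]
  refine finsum_congr fun D => ?_
  push_cast; ring

lemma deg_mul (N : P → ℤ) (m : ℤ) : X.deg (fun D => m * N D) = m * X.deg N := by
  unfold deg
  by_cases hm : m = 0
  · simp [hm]
  rw [← smul_eq_mul (m : ℝ), smul_finsum]
  refine finsum_congr fun D => ?_
  simp only [smul_eq_mul]
  push_cast; ring

lemma supp_mul {N : P → ℤ} (hN : {D | N D ≠ 0}.Finite) (m : ℤ) :
    {D | m * N D ≠ 0}.Finite :=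
  hN.subset fun D hD h0 => hD (by simp [h0])

lemma supp_add {N N' : P → ℤ} (hN : {D | N D ≠ 0}.Finite) (hN' : {D | N' D ≠ 0}.Finite) :
    {D | N D + N' D ≠ 0}.Finite := by
  refine (hN.union hN').subset fun D hD => ?_
  by_contra hc
  simp only [Set.mem_union, Set.mem_ofPred_eq, not_or, not_not] at hc
  exact hD (by rw [hc.1, hc.2]; rfl)

variable {Pc L : P → ℤ}

/-- The divisor of a good section is supported on the null primes. -/
lemma Good.eq_zero (hPf : {D | Pc D ≠ 0}.Finite) (hLf : {D | L D ≠ 0}.Finite)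
    (hP0 : X.deg Pc ≤ 0) (hL0 : X.deg L ≤ 0) {M : ℕ} {e : F} (h : X.Good Pc L M e)
    (D : P) (hD : D ∉ X.V) : X.ord D e + (Pc D + M * L D) = 0 := by
  refine X.ord_add_eq_zero_of_nonneg h.1 (fun D => Pc D + M * L D)
    (supp_add hPf (supp_mul hLf M)) ?_ (fun D _ => h.2 D) D hD
  have h1 := X.deg_add hPf (supp_mul hLf (M : ℤ))
  have h2 := X.deg_mul L (M : ℤ)
  have h3 : X.deg (fun D => Pc D + (M : ℤ) * L D) ≤ 0 := by
    rw [h1, h2]
    have : ((M : ℤ) : ℝ) * X.deg L ≤ 0 := mul_nonpos_of_nonneg_of_nonpos (by positivity) hL0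
    linarith
  exact h3

/-- `σ = e' / e` trivialises `m L`, `m = M' - M`, outside the null primes. -/
lemma Good.div (hPf : {D | Pc D ≠ 0}.Finite) (hLf : {D | L D ≠ 0}.Finite)
    (hP0 : X.deg Pc ≤ 0) (hL0 : X.deg L ≤ 0) {M M' m : ℕ} (hm : M' = M + m) {e e' : F}
    (h : X.Good Pc L M e) (h' : X.Good Pc L M' e') (D : P) (hD : D ∉ X.V) :
    X.ord D (e' / e) + m * L D = 0 := by
  have h1 := h.eq_zero X hPf hLf hP0 hL0 D hD
  have h2 := h'.eq_zero X hPf hLf hP0 hL0 D hD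
  rw [X.ord_div D h'.1 h.1]
  subst hm
  push_cast at h2
  linarith

/-- **Horizontal positivity.**  Let `w` be an additive function on `F^×` that is trivial on `K_Y`,
and suppose that `w e + p + M l ≥ 0` for all good `(M, e)`, `M` arbitrarily large.  Then
`w σ + m l ≥ 0` for `σ = e' / e`, where `e`, `e'` are good for `M`, `M + m`. -/
theorem hor_nonneg (hPf : {D | Pc D ≠ 0}.Finite) (hLf : {D | L D ≠ 0}.Finite)
    (hP0 : X.deg Pc ≤ 0) (hL0 : X.deg L = 0)
    (w : F → ℤ) (w_mul : ∀ f g : F, f ≠ 0 → g ≠ 0 → w (f * g) = w f + w g)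
    (w_KY : ∀ f ∈ X.KY, f ≠ 0 → w f = 0) (p l : ℤ)
    (hw : ∀ M e, X.Good Pc L M e → 0 ≤ w e + (p + M * l))
    (hinf : ∀ n : ℕ, ∃ M ≥ n, ∃ e, X.Good Pc L M e)
    {M m : ℕ} {e e' : F} (h : X.Good Pc L M e) (h' : X.Good Pc L (M + m) e') :
    0 ≤ w (e' / e) + m * l := by
  have w_one : w 1 = 0 := by
    have := w_mul 1 1 one_ne_zero one_ne_zero
    rw [one_mul] at this
    linarith
  have w_pow : ∀ (f : F), f ≠ 0 → ∀ n : ℕ, w (f ^ n) = n * w f := by
    intro f hf n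
    induction n with
    | zero => simp [w_one]
    | succ n ih =>
      rw [pow_succ, w_mul _ _ (pow_ne_zero _ hf) hf, ih]
      push_cast; ring
  have w_inv : ∀ f : F, f ≠ 0 → w f⁻¹ = - w f := by
    intro f hf
    have := w_mul f f⁻¹ hf (inv_ne_zero hf)
    rw [mul_inv_cancel₀ hf, w_one] at this
    linarith
  have w_div : ∀ f g : F, f ≠ 0 → g ≠ 0 → w (f / g) = w f - w g := by
    intro f g hf hg
    rw [div_eq_mul_inv, w_mul _ _ hf (inv_ne_zero hg), w_inv g hg]; ring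
  set σ := e' / e with hσ
  have hσ0 : σ ≠ 0 := div_ne_zero h'.1 h.1
  have hσV : ∀ D, D ∉ X.V → X.ord D σ + m * L D = 0 := fun D hD =>
    Good.div X hPf hLf hP0 hL0.le rfl h h' D hD
  by_contra hneg
  rw [not_le] at hneg
  -- choose a large index
  obtain ⟨M₁, hM₁, e₁, h₁⟩ := hinf (M + (Int.toNat (m * (w e + (p + M * l)))) + 1)
  have hM₁' : M ≤ M₁ := by omega
  obtain ⟨n, rfl⟩ := Nat.exists_eq_add_of_le hM₁'
  have hn : (m : ℤ) * (w e + (p + M * l)) < n := by
    have : Int.toNat (m * (w e + (p + M * l))) < n := by omega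
    exact (Int.self_le_toNat _).trans_lt (by exact_mod_cast this)
  set τ := e₁ / e with hτ
  have hτ0 : τ ≠ 0 := div_ne_zero h₁.1 h.1
  have hτV : ∀ D, D ∉ X.V → X.ord D τ + n * L D = 0 := fun D hD =>
    Good.div X hPf hLf hP0 hL0.le rfl h h₁ D hD
  -- the quotient of powers lies in `K_Y`
  have hKY : τ ^ m / σ ^ n ∈ X.KY := by
    refine X.rank_one (pow_ne_zero _ hτ0) (pow_ne_zero _ hσ0) (fun D => ((m * n : ℕ) : ℤ) * L D)
      (supp_mul hLf _) ?_ ?_ ?_
    · have := X.deg_mul L ((m * n : ℕ) : ℤ)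
      unfold deg at this hL0
      rw [this, hL0, mul_zero]
    · intro D hD
      rw [X.ord_pow]
      have := hτV D hD
      have h3 : (m : ℤ) * X.ord D τ + ((m * n : ℕ) : ℤ) * L D = m * (X.ord D τ + n * L D) := by
        push_cast; ring
      rw [h3, this, mul_zero]
    · intro D hD
      rw [X.ord_pow]
      have := hσV D hD
      have h3 : (n : ℤ) * X.ord D σ + ((m * n : ℕ) : ℤ) * L D = n * (X.ord D σ + m * L D) := by
        push_cast; ring
      rw [h3, this, mul_zero]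
  have hw0 := w_KY _ hKY (div_ne_zero (pow_ne_zero _ hτ0) (pow_ne_zero _ hσ0))
  rw [w_div _ _ (pow_ne_zero _ hτ0) (pow_ne_zero _ hσ0), w_pow τ hτ0, w_pow σ hσ0] at hw0
  have hwτ : w τ = w e₁ - w e := w_div _ _ h₁.1 h.1
  have hpos := hw _ _ h₁
  -- m * (w e₁ + p + (M+n) l) = m (w e + p + M l) + n (w σ + m l)
  have hid : (m : ℤ) * (w e₁ + (p + ((M + n : ℕ) : ℤ) * l)) =
      m * (w e + (p + M * l)) + n * (w σ + m * l) := by
    have : (m : ℤ) * (w e₁ - w e) = n * w σ := by rw [← hwτ]; linarith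
    push_cast
    linear_combination this
  have hlhs : 0 ≤ (m : ℤ) * (w e₁ + (p + ((M + n : ℕ) : ℤ) * l)) :=
    mul_nonneg (by positivity) hpos
  have hrhs : (n : ℤ) * (w σ + m * l) ≤ n * (-1) :=
    mul_le_mul_of_nonneg_left (by omega) (by positivity)
  rw [hid] at hlhs
  linarith

/-- If `K_Y` consists of constants, then a positive multiple of `L` is effective. -/
theorem section_of_KY_const (hPf : {D | Pc D ≠ 0}.Finite) (hLf : {D | L D ≠ 0}.Finite)
    (hP0 : X.deg Pc ≤ 0) (hL0 : X.deg L = 0)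
    (hK : ∀ f ∈ X.KY, ∃ c : k, algebraMap k F c = f)
    (hinf : ∀ n : ℕ, ∃ M ≥ n, ∃ e, X.Good Pc L M e) :
    ∃ m > 0, ∃ σ : F, σ ≠ 0 ∧ ∀ D, 0 ≤ X.ord D σ + m * L D := by
  obtain ⟨M, -, e, h⟩ := hinf 0
  obtain ⟨M', hM', e', h'⟩ := hinf (M + 1)
  obtain ⟨m, rfl⟩ := Nat.exists_eq_add_of_le (show M ≤ M' by omega)
  refine ⟨m, by omega, e' / e, div_ne_zero h'.1 h.1, fun D => ?_⟩
  refine X.hor_nonneg hPf hLf hP0 hL0 (X.ord D) (fun f g hf hg => X.ord_mul D hf hg) ?_
    (Pc D) (L D) (fun M e he => he.2 D) hinf h h'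
  intro f hf hf0
  obtain ⟨c, rfl⟩ := hK f hf
  have hc : c ≠ 0 := by
    rintro rfl
    simp at hf0
  rw [X.ord_eq_zero_iff D hf0]
  exact X.v_const D c hc

end DivData

end Vale.Agent.P299.G
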