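import Vale.Agent.P299.G.KY
import Vale.Agent.P299.G.Scheme

/-!
# The divisorial data of a Noetherian integral scheme that is regular in codimension one
-/

open AlgebraicGeometry Order TopologicalSpace CategoryTheory WithZero

universe u

namespace Vale.Agent.P299.G

/-- The valuation attached to an order function. -/
noncomputable def valOfOrd {F : Type*} [Field F] (o : F → ℤ)
    (hmul : ∀ f g : F, f ≠ 0 → g ≠ 0 → o (f * g) = o f + o g)
    (hadd : ∀ f g : F, f ≠ 0 → g ≠ 0 → f + g ≠ 0 → min (o f) (o g) ≤ o (f + g)) :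
    Valuation F ℤᵐ⁰ where
  toFun f := by
    classical
    exact if f = 0 then 0 else exp (-o f)
  map_zero' := by simp
  map_one' := by
    have h1 : o 1 = 0 := by
      have := hmul 1 1 one_ne_zero one_ne_zero
      rw [one_mul] at this
      linarith
    simp [h1]
  map_mul' f g := by
    by_cases hf : f = 0
    · simp [hf]
    by_cases hg : g = 0
    · simp [hg]
    simp only [hf, hg, mul_ne_zero hf hg, if_false]
    rw [hmul f g hf hg, neg_add, exp_add]
  map_add_le_max' f g := by
    by_cases hfg : f + g = 0
    · simp [hfg]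
    by_cases hf : f = 0
    · rw [hf, zero_add]
      exact le_max_right _ _
    by_cases hg : g = 0
    · rw [hg, add_zero]
      exact le_max_left _ _
    simp only [hf, hg, hfg, if_false]
    have h := hadd f g hf hg hfg
    rcases min_le_iff.1 h with h | h
    · exact le_trans (exp_le_exp.2 (neg_le_neg h)) (le_max_left _ _)
    · exact le_trans (exp_le_exp.2 (neg_le_neg h)) (le_max_right _ _)

lemma valOfOrd_apply {F : Type*} [Field F] (o : F → ℤ)
    (hmul : ∀ f g : F, f ≠ 0 → g ≠ 0 → o (f * g) = o f + o g)
    (hadd : ∀ f g : F, f ≠ 0 → g ≠ 0 → f + g ≠ 0 → min (o f) (o g) ≤ o (f + g))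
    {f : F} (hf : f ≠ 0) : valOfOrd o hmul hadd f = exp (-o f) := by
  classical
  change (if f = 0 then (0 : ℤᵐ⁰) else exp (-o f)) = _
  rw [if_neg hf]

variable (X : Scheme.{u}) [IsIntegral X] [IsNoetherian X] (k : Type*) [Field k]
  [Algebra k X.functionField]

/-- The divisorial data of a scheme, for a degree function `δ` on its points of codimension one. -/
noncomputable def ofScheme (φ : k →+* Γ(X, ⊤))
    (hφ : ∀ c, algebraMap k X.functionField c =
      X.presheaf.germ ⊤ (genericPoint X) trivial (φ c))
    (hreg : ∀ x : X, coheight x = 1 → IsDiscreteValuationRing (X.presheaf.stalk x))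
    (δ : {x : X // coheight x = 1} → ℝ) (hδ : ∀ x, 0 ≤ δ x)
    (hsum : ∀ f : X.functionField, f ≠ 0 →
      ∑ᶠ x : {x : X // coheight x = 1}, (Scheme.ord f x.1 : ℝ) * δ x = 0) :
    DivData k X.functionField {x : X // coheight x = 1} where
  v x := valOfOrd (fun f => Scheme.ord f x.1)
    (fun f g hf hg => Scheme.ord_mul hf hg)
    (fun f g hf hg hfg => by
      have := hreg x.1 x.2
      exact Scheme.ord_add hfg)
  v_const x c hc := by
    have hc' : algebraMap k X.functionField c ≠ 0 := by
      simpa using hc
    rw [valOfOrd_apply _ _ _ hc']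
    have : Scheme.ord (algebraMap k X.functionField c) x.1 = 0 := by
      rw [hφ]
      have : Nonempty (⊤ : X.Opens) := ⟨⟨x.1, trivial⟩⟩
      exact Scheme.ord_of_isUnit (U := ⊤) ((isUnit_iff_ne_zero.2 hc).map φ) trivial
    rw [this]; simp
  supp_finite f hf := by
    have h := finite_ord_ne_zero f hf
    have h2 : {x : {x : X // coheight x = 1} | Scheme.ord f x.1 ≠ 0}.Finite :=
      h.preimage (Subtype.val_injective.injOn)
    refine h2.subset fun x hx => ?_
    intro h0
    apply hx
    rw [valOfOrd_apply _ _ _ hf, h0]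
    simp
  delta := δ
  delta_nonneg := hδ
  sum_delta f hf := by
    have h := hsum f hf
    have h2 : (fun x : {x : X // coheight x = 1} =>
        ((log (valOfOrd (fun f => Scheme.ord f x.1)
          (fun f g hf hg => Scheme.ord_mul hf hg)
          (fun f g hf hg hfg => by
            have := hreg x.1 x.2
            exact Scheme.ord_add hfg) f) : ℤ) : ℝ) * δ x) =
        fun x => -((Scheme.ord f x.1 : ℝ) * δ x) := by
      funext x
      rw [valOfOrd_apply _ _ _ hf, log_exp]
      push_cast
      ring
    rw [h2, finsum_neg_distrib, h, neg_zero]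

lemma ofScheme_ord (φ : k →+* Γ(X, ⊤))
    (hφ : ∀ c, algebraMap k X.functionField c =
      X.presheaf.germ ⊤ (genericPoint X) trivial (φ c))
    (hreg : ∀ x : X, coheight x = 1 → IsDiscreteValuationRing (X.presheaf.stalk x))
    (δ : {x : X // coheight x = 1} → ℝ) (hδ : ∀ x, 0 ≤ δ x)
    (hsum : ∀ f : X.functionField, f ≠ 0 →
      ∑ᶠ x : {x : X // coheight x = 1}, (Scheme.ord f x.1 : ℝ) * δ x = 0)
    (x : {x : X // coheight x = 1}) {f : X.functionField} (hf : f ≠ 0) :
    (ofScheme X k φ hφ hreg δ hδ hsum).ord x f = Scheme.ord f x.1 := by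
  have h : (ofScheme X k φ hφ hreg δ hδ hsum).v x f = exp (-Scheme.ord f x.1) := by
    have h2 := valOfOrd_apply (fun f : X.functionField => Scheme.ord f x.1)
      (fun f g hf hg => Scheme.ord_mul hf hg)
      (fun f g hf hg hfg => by
        have := hreg x.1 x.2
        exact Scheme.ord_add hfg) hf
    exact h2
  unfold DivData.ord
  rw [h, log_exp, neg_neg]

end Vale.Agent.P299.G
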