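import Mathlib.LinearAlgebra.Multilinear.Basic
import Mathlib.LinearAlgebra.Multilinear.Curry
import Mathlib.Data.Int.Order.Basic
import Mathlib.Algebra.Order.Group.Int
import Mathlib.Algebra.BigOperators.Intervals
import Mathlib.Data.Nat.Choose.Sum
import Mathlib.Algebra.Order.BigOperators.Group.Finset
import Mathlib.Order.Interval.Finset.Fin
import Mathlib.GroupTheory.Perm.Fin
import Mathlib.Tactic.Linarith
import Mathlib.Tactic.Ring
import Mathlib.Tactic.Positivity

/-!
# Polynomials of intersection numbers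

`J` is a symmetric multilinear form on an abelian group of classes with values in `ℤ`.
-/

open Finset

namespace Vale.Agent.P299.G

variable {A : Type*} [AddCommGroup A]

/-- `J` is invariant under permutations of its entries. -/
def Symm {n : ℕ} (J : MultilinearMap ℤ (fun _ : Fin n => A) ℤ) : Prop :=
  ∀ (σ : Equiv.Perm (Fin n)) (v : Fin n → A), J (fun i => v (σ i)) = J v

/-- The tuple with `j` entries `L` followed by entries `H`. -/
def mix {n : ℕ} (L H : A) (j : ℕ) : Fin n → A := fun i => if i.val < j then L else H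

lemma symm_curryLeft {m : ℕ} {I : MultilinearMap ℤ (fun _ : Fin (m + 1) => A) ℤ} (hI : Symm I)
    (B : A) : Symm (I.curryLeft B) := by
  intro σ v
  rw [MultilinearMap.curryLeft_apply, MultilinearMap.curryLeft_apply]
  have h := hI (Equiv.Perm.decomposeFin.symm (0, σ)) (Fin.cons B v)
  rw [← h]
  congr 1
  funext i
  refine Fin.cases ?_ (fun i => ?_) i
  · simp
  · simp

lemma exists_perm_of_card {n : ℕ} (s : Finset (Fin n)) :
    ∃ σ : Equiv.Perm (Fin n), ∀ i, (σ i).val < s.card ↔ i ∈ s := by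
  classical
  have hs : s.card ≤ n := by simpa using s.card_le_univ
  have e1 : {i // i ∈ s} ≃ {i : Fin n // i.val < s.card} := by
    refine Fintype.equivOfCardEq ?_
    rw [Fintype.card_coe, Fintype.card_subtype]
    have : (univ.filter fun i : Fin n => i.val < s.card).card = s.card := by
      rw [Fin.card_filter_val_lt]
      omega
    rw [this]
  have e2 : {i // ¬ i ∈ s} ≃ {i : Fin n // ¬ i.val < s.card} := by
    refine Fintype.equivOfCardEq ?_
    rw [Fintype.card_subtype_compl, Fintype.card_subtype_compl]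
    congr 1
    exact Fintype.card_congr e1
  refine ⟨Equiv.subtypeCongr e1 e2, fun i => ?_⟩
  by_cases hi : i ∈ s
  · have := (e1 ⟨i, hi⟩).2
    simp only [Equiv.subtypeCongr, Equiv.trans_apply]
    simp only [Equiv.sumCompl, hi, Equiv.sumCongr]
    simpa [hi] using this
  · have := (e2 ⟨i, hi⟩).2
    simp only [Equiv.subtypeCongr, Equiv.trans_apply]
    simp only [Equiv.sumCompl, hi, Equiv.sumCongr]
    simpa [hi] using this

lemma symm_piecewise {n : ℕ} {J : MultilinearMap ℤ (fun _ : Fin n => A) ℤ} (hJ : Symm J)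
    (L H : A) (s : Finset (Fin n)) :
    J (s.piecewise (fun _ => L) (fun _ => H)) = J (mix L H s.card) := by
  classical
  obtain ⟨σ, hσ⟩ := exists_perm_of_card s
  rw [← hJ σ (mix L H s.card)]
  congr 1
  funext i
  unfold mix Finset.piecewise
  by_cases hi : i ∈ s
  · rw [if_pos hi, if_pos ((hσ i).2 hi)]
  · rw [if_neg hi, if_neg (fun h => hi ((hσ i).1 h))]

/-- Binomial expansion of `J (bL + aH, …, bL + aH)`. -/
theorem expand {n : ℕ} {J : MultilinearMap ℤ (fun _ : Fin n => A) ℤ} (hJ : Symm J)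
    (L H : A) (b a : ℤ) :
    J (fun _ => b • L + a • H) =
      ∑ j ∈ range (n + 1), (n.choose j : ℤ) * b ^ j * a ^ (n - j) * J (mix L H j) := by
  classical
  have h1 : (fun _ : Fin n => b • L + a • H) =
      (fun _ : Fin n => b • L) + (fun _ : Fin n => a • H) := rfl
  rw [h1, J.map_add_univ]
  have h2 : ∀ s : Finset (Fin n),
      J (s.piecewise (fun _ => b • L) (fun _ => a • H)) =
        b ^ s.card * a ^ (n - s.card) * J (mix L H s.card) := by
    intro s
    rw [← symm_piecewise hJ L H s]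
    have h3 : s.piecewise (fun _ : Fin n => b • L) (fun _ => a • H) =
        fun i => (s.piecewise (fun _ => b) (fun _ => a) : Fin n → ℤ) i •
          (s.piecewise (fun _ => L) (fun _ => H) : Fin n → A) i := by
      funext i
      by_cases hi : i ∈ s
      · simp [hi]
      · simp [hi]
    rw [h3, J.map_smul_univ]
    congr 1
    rw [Finset.prod_piecewise]
    simp only [prod_const]
    congr 2
    · rw [Finset.univ_inter]
    · rw [← Finset.compl_eq_univ_sdiff, Finset.card_compl, Fintype.card_fin]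
  rw [Finset.sum_congr rfl fun s _ => h2 s]
  have h4 := Finset.sum_powerset_apply_card
    (fun j => b ^ j * a ^ (n - j) * J (mix L H j)) (x := (univ : Finset (Fin n)))
  rw [Finset.powerset_univ] at h4
  rw [h4, Finset.card_univ, Fintype.card_fin]
  refine Finset.sum_congr rfl fun j _ => ?_
  rw [nsmul_eq_mul]
  ring

omit [AddCommGroup A] in
lemma cons_mix {m : ℕ} (L H : A) (j : ℕ) :
    (Fin.cons L (mix L H j : Fin m → A) : Fin (m + 1) → A) = mix L H (j + 1) := by
  funext i
  refine Fin.cases ?_ (fun i => ?_) i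
  · simp [mix]
  · simp [mix]

/-- If `J (H + tL, …, H + tL) ≤ 0` for all `t ≥ 0` and the terms with more than `ν` entries `L`
vanish, then the leading coefficient `J (L^ν, H^(m-ν))` is at most `0`. -/
theorem leading_nonpos {m : ℕ} {J : MultilinearMap ℤ (fun _ : Fin m => A) ℤ} (hJ : Symm J)
    (L H : A) {ν : ℕ} (hν : ν ≤ m)
    (h : ∀ t : ℕ, J (fun _ => H + (t : ℤ) • L) ≤ 0)
    (hz : ∀ j, ν < j → j ≤ m → J (mix L H j) = 0) : J (mix L H ν) ≤ 0 := by
  by_contra hc
  push Not at hc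
  set S : ℤ := ∑ j ∈ range ν, (m.choose j : ℤ) * |J (mix L H j)| with hS
  have hS0 : 0 ≤ S := Finset.sum_nonneg fun j _ => by positivity
  set t : ℕ := (S + 1).toNat with ht
  have ht1 : (t : ℤ) = S + 1 := Int.toNat_of_nonneg (by omega)
  have ht2 : (1 : ℤ) ≤ t := by omega
  have h1 := h t
  have h2 : (fun _ : Fin m => H + (t : ℤ) • L) = fun _ => (t : ℤ) • L + (1 : ℤ) • H := by
    funext i
    rw [one_smul, add_comm]
  rw [h2, expand hJ] at h1
  -- split the sum
  have h3 : ∑ j ∈ range (m + 1), (m.choose j : ℤ) * (t : ℤ) ^ j * 1 ^ (m - j) * J (mix L H j) =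
      ∑ j ∈ range ν, (m.choose j : ℤ) * (t : ℤ) ^ j * J (mix L H j) +
        (m.choose ν : ℤ) * (t : ℤ) ^ ν * J (mix L H ν) := by
    rw [← Finset.sum_range_add_sum_Ico _ (show ν + 1 ≤ m + 1 by omega), Finset.sum_range_succ]
    rw [Finset.sum_eq_zero (s := Finset.Ico (ν + 1) (m + 1))]
    · simp
    · intro j hj
      rw [Finset.mem_Ico] at hj
      rw [hz j (by omega) (by omega), mul_zero]
  rw [h3] at h1
  have h4 : -(S * (t : ℤ) ^ ν) ≤
      t * ∑ j ∈ range ν, (m.choose j : ℤ) * (t : ℤ) ^ j * J (mix L H j) := by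
    rw [hS, Finset.sum_mul, ← Finset.sum_neg_distrib, Finset.mul_sum]
    refine Finset.sum_le_sum fun j hj => ?_
    rw [Finset.mem_range] at hj
    have h5 : (t : ℤ) ^ (j + 1) ≤ (t : ℤ) ^ ν := pow_le_pow_right₀ ht2 (by omega)
    have h6 : -|J (mix L H j)| ≤ J (mix L H j) := neg_abs_le _
    have h7 : (0 : ℤ) ≤ (m.choose j : ℤ) := by positivity
    have h8 : (0 : ℤ) ≤ |J (mix L H j)| := abs_nonneg _
    have h9 : (0 : ℤ) ≤ (t : ℤ) ^ (j + 1) := by positivity
    calc -((m.choose j : ℤ) * |J (mix L H j)| * (t : ℤ) ^ ν)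
        ≤ -((m.choose j : ℤ) * |J (mix L H j)| * (t : ℤ) ^ (j + 1)) := by
          apply neg_le_neg
          exact mul_le_mul_of_nonneg_left h5 (by positivity)
      _ = (m.choose j : ℤ) * (t : ℤ) ^ (j + 1) * (-|J (mix L H j)|) := by ring
      _ ≤ (m.choose j : ℤ) * (t : ℤ) ^ (j + 1) * J (mix L H j) :=
          mul_le_mul_of_nonneg_left h6 (by positivity)
      _ = t * ((m.choose j : ℤ) * (t : ℤ) ^ j * J (mix L H j)) := by ring
  have h10 : (t : ℤ) ^ ν ≤ (m.choose ν : ℤ) * (t : ℤ) ^ ν * J (mix L H ν) := by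
    have c1 : (1 : ℤ) ≤ (m.choose ν : ℤ) := by exact_mod_cast Nat.choose_pos hν
    have c2 : (0 : ℤ) < (t : ℤ) ^ ν := by positivity
    have c3 : (1 : ℤ) ≤ J (mix L H ν) := hc
    nlinarith [mul_le_mul c1 c3 (by norm_num) (by linarith), mul_pos c2 (show (0:ℤ) < 1 by norm_num)]
  have h11 : (0 : ℤ) < (t : ℤ) ^ ν := by positivity
  nlinarith

/-- The inequality that is needed for Siu's criterion: if `I (L^ν, H^(n-ν)) > 0` and
`I (B, L^j, H^(n-1-j)) ≤ 0` for `j ≥ ν`, then for a suitable `q` and all `0 < a ≤ b` the classes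
`q (bL + aH)` and `bB` satisfy `(q (bL+aH))^n > n (q (bL+aH))^(n-1) · bB`. -/
theorem exists_siu {m : ℕ} {I : MultilinearMap ℤ (fun _ : Fin (m + 1) => A) ℤ} (hI : Symm I)
    (L H B : A) {ν : ℕ} (hν : ν ≤ m + 1)
    (h0 : ∀ j, j ≤ m + 1 → 0 ≤ I (mix L H j)) (hpos : 0 < I (mix L H ν))
    (hB : ∀ j, ν ≤ j → j ≤ m → I (Fin.cons B (mix L H j)) ≤ 0) :
    ∃ q : ℕ, 0 < q ∧ ∀ a b : ℕ, 0 < a → a ≤ b →
      ((m + 1 : ℕ) : ℤ) * I (Fin.cons ((b : ℤ) • B)
        (fun _ => (q : ℤ) • ((b : ℤ) • L + (a : ℤ) • H))) <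
      I (fun _ => (q : ℤ) • ((b : ℤ) • L + (a : ℤ) • H)) := by
  set J := I.curryLeft B with hJ
  have hJs : Symm J := symm_curryLeft hI B
  have hJa : ∀ v : Fin m → A, J v = I (Fin.cons B v) := fun v => by
    rw [hJ, MultilinearMap.curryLeft_apply]
  set S : ℤ := ∑ j ∈ range (m + 1), (m.choose j : ℤ) * |J (mix L H j)| with hS
  have hS0 : 0 ≤ S := Finset.sum_nonneg fun j _ => by positivity
  set q : ℕ := (((m + 1 : ℕ) : ℤ) * S + 1).toNat with hq
  have hq0 : (0 : ℤ) ≤ ((m + 1 : ℕ) : ℤ) * S + 1 := by positivity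
  have hq1 : (q : ℤ) = ((m + 1 : ℕ) : ℤ) * S + 1 := Int.toNat_of_nonneg hq0
  have hq2 : 0 < (q : ℤ) := by rw [hq1]; positivity
  refine ⟨q, by exact_mod_cast hq2, fun a b ha hab => ?_⟩
  have haZ : (1 : ℤ) ≤ a := by exact_mod_cast ha
  have habZ : (a : ℤ) ≤ b := by exact_mod_cast hab
  have hbZ : (1 : ℤ) ≤ b := haZ.trans habZ
  -- upper bound
  have hup : b * J (fun _ => (b : ℤ) • L + (a : ℤ) • H) ≤ S * ((b : ℤ) ^ ν * (a : ℤ) ^ (m + 1 - ν)) := by
    rw [expand hJs, Finset.mul_sum, hS, Finset.sum_mul]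
    refine Finset.sum_le_sum fun j hj => ?_
    rw [Finset.mem_range] at hj
    by_cases hjν : ν ≤ j
    · have h1 : J (mix L H j) ≤ 0 := by
        rw [hJa]; exact hB j hjν (by omega)
      have h2 : (0 : ℤ) ≤ (b : ℤ) * ((m.choose j : ℤ) * (b : ℤ) ^ j * (a : ℤ) ^ (m - j)) := by
        positivity
      have h3 : (0 : ℤ) ≤ (m.choose j : ℤ) * |J (mix L H j)| * ((b : ℤ) ^ ν * (a : ℤ) ^ (m + 1 - ν)) := by
        positivity
      nlinarith [mul_nonneg h2 (neg_nonneg.2 h1)]
    · push Not at hjν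
      have e1 : (b : ℤ) ^ (j + 1) * (a : ℤ) ^ (m - j) ≤ (b : ℤ) ^ ν * (a : ℤ) ^ (m + 1 - ν) := by
        have e2 : m - j = (ν - (j + 1)) + (m + 1 - ν) := by omega
        have e3 : (b : ℤ) ^ ν = (b : ℤ) ^ (j + 1) * (b : ℤ) ^ (ν - (j + 1)) := by
          rw [← pow_add]; congr 1; omega
        rw [e2, pow_add (a : ℤ) (ν - (j + 1)) (m + 1 - ν), e3, ← mul_assoc]
        apply mul_le_mul_of_nonneg_right _ (by positivity)
        apply mul_le_mul_of_nonneg_left _ (by positivity)
        exact pow_le_pow_left₀ (by omega) habZ _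
      calc (b : ℤ) * ((m.choose j : ℤ) * (b : ℤ) ^ j * (a : ℤ) ^ (m - j) * J (mix L H j))
          = (m.choose j : ℤ) * ((b : ℤ) ^ (j + 1) * (a : ℤ) ^ (m - j)) * J (mix L H j) := by ring
        _ ≤ (m.choose j : ℤ) * ((b : ℤ) ^ (j + 1) * (a : ℤ) ^ (m - j)) * |J (mix L H j)| :=
            mul_le_mul_of_nonneg_left (le_abs_self _) (by positivity)
        _ ≤ (m.choose j : ℤ) * ((b : ℤ) ^ ν * (a : ℤ) ^ (m + 1 - ν)) * |J (mix L H j)| := by
            apply mul_le_mul_of_nonneg_right _ (abs_nonneg _)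
            exact mul_le_mul_of_nonneg_left e1 (by positivity)
        _ = (m.choose j : ℤ) * |J (mix L H j)| * ((b : ℤ) ^ ν * (a : ℤ) ^ (m + 1 - ν)) := by ring
  -- lower bound
  have hlow : (b : ℤ) ^ ν * (a : ℤ) ^ (m + 1 - ν) ≤ I (fun _ => (b : ℤ) • L + (a : ℤ) • H) := by
    rw [expand hI]
    have h1 : ((m + 1).choose ν : ℤ) * (b : ℤ) ^ ν * (a : ℤ) ^ (m + 1 - ν) * I (mix L H ν) ≤
        ∑ j ∈ range (m + 1 + 1), ((m + 1).choose j : ℤ) * (b : ℤ) ^ j * (a : ℤ) ^ (m + 1 - j) *
          I (mix L H j) := by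
      refine Finset.single_le_sum
        (f := fun j => ((m + 1).choose j : ℤ) * (b : ℤ) ^ j * (a : ℤ) ^ (m + 1 - j) *
          I (mix L H j)) (fun j hj => ?_) (Finset.mem_range.2 (by omega))
      rw [Finset.mem_range] at hj
      exact mul_nonneg (by positivity) (h0 j (by omega))
    refine le_trans ?_ h1
    have c1 : (1 : ℤ) ≤ ((m + 1).choose ν : ℤ) := by exact_mod_cast Nat.choose_pos hν
    have c2 : (0 : ℤ) < (b : ℤ) ^ ν * (a : ℤ) ^ (m + 1 - ν) := by positivity
    have c3 : (1 : ℤ) ≤ I (mix L H ν) := hpos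
    have c4 : (1 : ℤ) ≤ ((m + 1).choose ν : ℤ) * I (mix L H ν) := by nlinarith
    calc (b : ℤ) ^ ν * (a : ℤ) ^ (m + 1 - ν)
        = ((b : ℤ) ^ ν * (a : ℤ) ^ (m + 1 - ν)) * 1 := by ring
      _ ≤ ((b : ℤ) ^ ν * (a : ℤ) ^ (m + 1 - ν)) * (((m + 1).choose ν : ℤ) * I (mix L H ν)) :=
          mul_le_mul_of_nonneg_left c4 c2.le
      _ = _ := by ring
  have c5 : (0 : ℤ) < (b : ℤ) ^ ν * (a : ℤ) ^ (m + 1 - ν) := by positivity
  -- scaling
  have s1 : I (fun _ => (q : ℤ) • ((b : ℤ) • L + (a : ℤ) • H)) =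
      (q : ℤ) ^ (m + 1) * I (fun _ => (b : ℤ) • L + (a : ℤ) • H) := by
    have := I.map_smul_univ (fun _ => (q : ℤ)) (fun _ => (b : ℤ) • L + (a : ℤ) • H)
    rw [this]
    simp
  have s2 : I (Fin.cons ((b : ℤ) • B) (fun _ => (q : ℤ) • ((b : ℤ) • L + (a : ℤ) • H))) =
      (q : ℤ) ^ m * (b * J (fun _ => (b : ℤ) • L + (a : ℤ) • H)) := by
    have e1 : I (Fin.cons ((b : ℤ) • B) (fun _ => (q : ℤ) • ((b : ℤ) • L + (a : ℤ) • H))) =
        b * J (fun _ => (q : ℤ) • ((b : ℤ) • L + (a : ℤ) • H)) := by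
      rw [← MultilinearMap.curryLeft_apply, map_smul, hJ]
      rfl
    have := J.map_smul_univ (fun _ => (q : ℤ)) (fun _ => (b : ℤ) • L + (a : ℤ) • H)
    rw [e1, this]
    simp
    ring
  rw [s1, s2]
  have hqm : (0 : ℤ) < (q : ℤ) ^ m := by positivity
  have key : ((m + 1 : ℕ) : ℤ) * (b * J (fun _ => (b : ℤ) • L + (a : ℤ) • H)) <
      q * I (fun _ => (b : ℤ) • L + (a : ℤ) • H) := by
    have k1 : ((m + 1 : ℕ) : ℤ) * (b * J (fun _ => (b : ℤ) • L + (a : ℤ) • H)) ≤
        ((m + 1 : ℕ) : ℤ) * (S * ((b : ℤ) ^ ν * (a : ℤ) ^ (m + 1 - ν))) :=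
      mul_le_mul_of_nonneg_left hup (by positivity)
    have k2 : (q : ℤ) * ((b : ℤ) ^ ν * (a : ℤ) ^ (m + 1 - ν)) ≤
        q * I (fun _ => (b : ℤ) • L + (a : ℤ) • H) := mul_le_mul_of_nonneg_left hlow hq2.le
    rw [hq1] at k2 ⊢
    nlinarith
  calc ((m + 1 : ℕ) : ℤ) * ((q : ℤ) ^ m * (b * J (fun _ => (b : ℤ) • L + (a : ℤ) • H)))
      = (q : ℤ) ^ m * (((m + 1 : ℕ) : ℤ) * (b * J (fun _ => (b : ℤ) • L + (a : ℤ) • H))) := by ring
    _ < (q : ℤ) ^ m * (q * I (fun _ => (b : ℤ) • L + (a : ℤ) • H)) :=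
        mul_lt_mul_of_pos_left key hqm
    _ = (q : ℤ) ^ (m + 1) * I (fun _ => (b : ℤ) • L + (a : ℤ) • H) := by ring

/-- If `I (L^k, H^(n-k)) = 0` then `L^k` is numerically trivial. -/
theorem null_of_mix {n : ℕ} {I : MultilinearMap ℤ (fun _ : Fin n => A) ℤ}
    {Nef : A → Prop} {L H : A} (hL : Nef L) (hH : Nef H)
    (hnef : ∀ v : Fin n → A, (∀ i, Nef (v i)) → 0 ≤ I v)
    (hdom : ∀ x : A, ∃ C : ℕ, Nef ((C : ℤ) • H - x) ∧ Nef ((C : ℤ) • H + x))
    {k : ℕ} (hk : I (mix L H k) = 0) (v : Fin n → A) (hv : ∀ i : Fin n, i.val < k → v i = L) :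
    I v = 0 := by
  classical
  -- nef tuples
  have step1 : ∀ s : Finset (Fin n), ∀ w : Fin n → A, (∀ i, Nef (w i)) →
      (∀ i : Fin n, i.val < k → w i = L) → (∀ i : Fin n, k ≤ i.val → i ∉ s → w i = H) →
      I w = 0 := by
    intro s
    induction s using Finset.induction_on with
    | empty =>
      intro w hw h1 h2
      have : w = mix L H k := by
        funext i
        unfold mix
        split_ifs with hi
        · exact h1 i hi
        · exact h2 i (by omega) (Finset.notMem_empty i)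
      rw [this, hk]
    | insert i s _ ih =>
      intro w hw h1 h2
      by_cases hik : i.val < k
      · refine ih w hw h1 fun j hj hjs => h2 j hj ?_
        rw [Finset.mem_insert, not_or]
        exact ⟨fun h => by rw [h] at hj; omega, hjs⟩
      · obtain ⟨C, hC, _⟩ := hdom (w i)
        have h3 : 0 ≤ I (Function.update w i ((C : ℤ) • H - w i)) := by
          refine hnef _ fun j => ?_
          by_cases hj : j = i
          · subst hj; rw [Function.update_self]; exact hC
          · rw [Function.update_of_ne hj]; exact hw j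
        have h4 : I (Function.update w i H) = 0 := by
          refine ih _ (fun j => ?_) (fun j hj => ?_) (fun j hj hjs => ?_)
          · by_cases hj : j = i
            · subst hj; rw [Function.update_self]; exact hH
            · rw [Function.update_of_ne hj]; exact hw j
          · have hji : j ≠ i := fun h => by rw [h] at hj; exact hik hj
            rw [Function.update_of_ne hji]; exact h1 j hj
          · by_cases hji : j = i
            · subst hji; rw [Function.update_self]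
            · rw [Function.update_of_ne hji]
              exact h2 j hj (by rw [Finset.mem_insert, not_or]; exact ⟨hji, hjs⟩)
        rw [I.map_update_sub, I.map_update_smul, h4, Function.update_eq_self] at h3
        have h5 := hnef w hw
        simp only [smul_zero, zero_sub] at h3
        omega
  -- general tuples
  have step2 : ∀ s : Finset (Fin n), ∀ w : Fin n → A, (∀ i, i ∉ s → Nef (w i)) →
      (∀ i : Fin n, i.val < k → w i = L) → I w = 0 := by
    intro s
    induction s using Finset.induction_on with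
    | empty =>
      intro w hw h1
      exact step1 univ w (fun i => hw i (Finset.notMem_empty i)) h1
        fun i _ hi => absurd (Finset.mem_univ i) hi
    | insert i s _ ih =>
      intro w hw h1
      by_cases hik : i.val < k
      · refine ih w (fun j hj => ?_) h1
        by_cases hji : j = i
        · rw [hji, h1 i hik]; exact hL
        · exact hw j (by rw [Finset.mem_insert, not_or]; exact ⟨hji, hj⟩)
      · obtain ⟨C, _, hC⟩ := hdom (w i)
        have h3 : I (Function.update w i ((C : ℤ) • H + w i)) = 0 := by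
          refine ih _ (fun j hj => ?_) (fun j hj => ?_)
          · by_cases hji : j = i
            · subst hji; rw [Function.update_self]; exact hC
            · rw [Function.update_of_ne hji]
              exact hw j (by rw [Finset.mem_insert, not_or]; exact ⟨hji, hj⟩)
          · have hji : j ≠ i := fun h => by rw [h] at hj; exact hik hj
            rw [Function.update_of_ne hji]; exact h1 j hj
        have h4 : I (Function.update w i H) = 0 := by
          refine ih _ (fun j hj => ?_) (fun j hj => ?_)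
          · by_cases hji : j = i
            · subst hji; rw [Function.update_self]; exact hH
            · rw [Function.update_of_ne hji]
              exact hw j (by rw [Finset.mem_insert, not_or]; exact ⟨hji, hj⟩)
          · have hji : j ≠ i := fun h => by rw [h] at hj; exact hik hj
            rw [Function.update_of_ne hji]; exact h1 j hj
        rw [I.map_update_add, I.map_update_smul, h4, Function.update_eq_self] at h3
        simpa using h3
  exact step2 univ v (fun i hi => absurd (Finset.mem_univ i) hi) hv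

/-- A symmetric form vanishes on every tuple with at least `k` entries `L`, if
`I (L^k, H^(n-k)) = 0`. -/
theorem null_of_card {n : ℕ} {I : MultilinearMap ℤ (fun _ : Fin n => A) ℤ} (hI : Symm I)
    {Nef : A → Prop} {L H : A} (hL : Nef L) (hH : Nef H)
    (hnef : ∀ v : Fin n → A, (∀ i, Nef (v i)) → 0 ≤ I v)
    (hdom : ∀ x : A, ∃ C : ℕ, Nef ((C : ℤ) • H - x) ∧ Nef ((C : ℤ) • H + x))
    {k : ℕ} (hk : I (mix L H k) = 0) (v : Fin n → A) (s : Finset (Fin n)) (hs : k ≤ s.card)
    (hv : ∀ i ∈ s, v i = L) : I v = 0 := by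
  obtain ⟨σ, hσ⟩ := exists_perm_of_card s
  have h1 : I (fun i => v (σ.symm i)) = I v := hI σ.symm v
  rw [← h1]
  refine null_of_mix hL hH hnef hdom hk _ fun i hi => ?_
  refine hv _ ((hσ _).1 ?_)
  rw [Equiv.apply_symm_apply]
  omega

omit [AddCommGroup A] in
/-- The tuple `(B, L^j, H^(m-j))` has `j` entries `L`. -/
lemma card_cons {m j : ℕ} (hj : j ≤ m) :
    ∃ s : Finset (Fin (m + 1)), s.card = j ∧ ∀ (B L H : A), ∀ i ∈ s,
      (Fin.cons B (mix L H j : Fin m → A) : Fin (m + 1) → A) i = L := by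
  refine ⟨(univ.filter fun i : Fin m => i.val < j).map (Fin.succEmb m), ?_, ?_⟩
  · rw [Finset.card_map, Fin.card_filter_val_lt]
    omega
  · intro B L H i hi
    rw [Finset.mem_map] at hi
    obtain ⟨i', hi', rfl⟩ := hi
    rw [Finset.mem_filter] at hi'
    simp [mix, hi'.2]

/-- The numerical dimension. -/
theorem exists_nu {n : ℕ} {I : MultilinearMap ℤ (fun _ : Fin n => A) ℤ} {L H : A}
    (h0 : ∀ j, j ≤ n → 0 ≤ I (mix L H j)) (hH : 0 < I (mix L H 0)) :
    ∃ ν, ν ≤ n ∧ 0 < I (mix L H ν) ∧ ∀ j, ν < j → j ≤ n → I (mix L H j) = 0 := by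
  classical
  have hne : ((range (n + 1)).filter fun j => 0 < I (mix L H j)).Nonempty :=
    ⟨0, by simp [hH]⟩
  set ν := ((range (n + 1)).filter fun j => 0 < I (mix L H j)).max' hne with hν
  have h1 := Finset.max'_mem _ hne
  rw [← hν, Finset.mem_filter, Finset.mem_range] at h1
  refine ⟨ν, by omega, h1.2, fun j hj hjn => ?_⟩
  refine le_antisymm ?_ (h0 j hjn)
  by_contra hc
  push Not at hc
  have h2 : j ≤ ν := by
    rw [hν]
    apply Finset.le_max'
    rw [Finset.mem_filter, Finset.mem_range]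
    exact ⟨by omega, hc⟩
  omega

section Package

variable {m : ℕ} {I : MultilinearMap ℤ (fun _ : Fin (m + 1) => A) ℤ} (hI : Symm I)
  {Nef : A → Prop} {L H : A} (hL : Nef L) (hH : Nef H)
  (hnef : ∀ v : Fin (m + 1) → A, (∀ i, Nef (v i)) → 0 ≤ I v)
  (hdom : ∀ x : A, ∃ C : ℕ, Nef ((C : ℤ) • H - x) ∧ Nef ((C : ℤ) • H + x))
  {ν : ℕ} (hz : ∀ j, ν < j → j ≤ m + 1 → I (mix L H j) = 0)

include hI hL hH hnef hdom hz

/-- `I (x, L^j, H^(m-j)) = 0` for every class `x` if `j > ν`. -/
theorem cons_eq_zero (x : A) {j : ℕ} (hj : ν < j) (hjm : j ≤ m) :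
    I (Fin.cons x (mix L H j)) = 0 := by
  obtain ⟨s, hs, hv⟩ := card_cons (A := A) hjm
  exact null_of_card hI hL hH hnef hdom (hz j hj (by omega)) _ s hs.ge (hv x L H)

omit hI hL hH hnef hdom in
/-- The degree `D ↦ I (D, L^ν, H^(m-ν))` kills `L`. -/
theorem delta_self (hν : ν ≤ m) : I (Fin.cons L (mix L H ν)) = 0 := by
  rw [cons_mix]
  exact hz _ (by omega) (by omega)

/-- If `I (P, H + tL, …, H + tL) ≤ 0` for all `t ≥ 0` (generic nefness of the tangent bundle) then
`I (P, L^ν, H^(m-ν)) ≤ 0`. -/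
theorem delta_nonpos (hν : ν ≤ m) {P : A}
    (hP : ∀ t : ℕ, I (Fin.cons P (fun _ => H + (t : ℤ) • L)) ≤ 0) :
    I (Fin.cons P (mix L H ν)) ≤ 0 := by
  have h1 := leading_nonpos (J := I.curryLeft P) (symm_curryLeft hI P) L H hν
    (fun t => by rw [MultilinearMap.curryLeft_apply]; exact hP t)
    (fun j hj hjm => by
      rw [MultilinearMap.curryLeft_apply]
      exact cons_eq_zero hI hL hH hnef hdom hz P hj hjm)
  rwa [MultilinearMap.curryLeft_apply] at h1

/-- Input of Siu's criterion, from the single vanishing `I (B, L^ν, H^(m-ν)) = 0`. -/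
theorem exists_siu' (hν : ν ≤ m) (hpos : 0 < I (mix L H ν)) {B : A}
    (hB : I (Fin.cons B (mix L H ν)) ≤ 0) :
    ∃ q : ℕ, 0 < q ∧ ∀ a b : ℕ, 0 < a → a ≤ b →
      ((m + 1 : ℕ) : ℤ) * I (Fin.cons ((b : ℤ) • B)
        (fun _ => (q : ℤ) • ((b : ℤ) • L + (a : ℤ) • H))) <
      I (fun _ => (q : ℤ) • ((b : ℤ) • L + (a : ℤ) • H)) := by
  refine exists_siu hI L H B (by omega) (fun j _ => hnef _ fun i => ?_) hpos
    (fun j hj hjm => ?_)
  · unfold mix
    split_ifs
    · exact hL
    · exact hH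
  · rcases hj.lt_or_eq with h | h
    · exact (cons_eq_zero hI hL hH hnef hdom hz B h hjm).le
    · rw [← h]; exact hB

end Package

end Vale.Agent.P299.G
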