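import Mathlib.RingTheory.Valuation.Integral
import Mathlib.RingTheory.Valuation.Basic
import Mathlib.FieldTheory.IntermediateField.Basic
import Mathlib.FieldTheory.IntermediateField.Algebraic
import Mathlib.Algebra.Order.GroupWithZero.Canonical
import Mathlib.Data.Real.Basic
import Mathlib.Algebra.BigOperators.Finprod
import Mathlib.Data.Finsupp.Basic
import Mathlib.LinearAlgebra.Dimension.Finrank

/-!
# The field of functions whose divisor is supported on the null divisors

Abstract divisorial data: a field `F` over a field `k` with a family of discrete valuations indexed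
by a set `P` of prime divisors, together with a degree function on `P` that is nonnegative and kills
principal divisors.
-/

open WithZero

namespace Vale.Agent.P299.G

/-- Abstract divisorial data of a field extension `F` of `k`: discrete valuations indexed by the
prime divisors, trivial on constants, with finitely many zeros and poles for each function, and a
nonnegative degree of the prime divisors for which principal divisors have degree `0`. -/
structure DivData (k F : Type*) [Field k] [Field F] [Algebra k F] (P : Type*) where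
  /-- the valuation of a prime divisor -/
  v : P → Valuation F ℤᵐ⁰
  v_const : ∀ D (c : k), c ≠ 0 → v D (algebraMap k F c) = 1
  supp_finite : ∀ f : F, f ≠ 0 → {D | v D f ≠ 1}.Finite
  /-- the degree of a prime divisor -/
  delta : P → ℝ
  delta_nonneg : ∀ D, 0 ≤ delta D
  sum_delta : ∀ f : F, f ≠ 0 → ∑ᶠ D, ((log (v D f) : ℤ) : ℝ) * delta D = 0

namespace DivData

variable {k F : Type*} [Field k] [Field F] [Algebra k F] {P : Type*} (X : DivData k F P)

/-- The order of vanishing along `D`. -/
noncomputable def ord (D : P) (f : F) : ℤ := - log (X.v D f)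

lemma ord_mul (D : P) {f g : F} (hf : f ≠ 0) (hg : g ≠ 0) :
    X.ord D (f * g) = X.ord D f + X.ord D g := by
  unfold ord
  rw [map_mul, log_mul ((X.v D).ne_zero_iff.2 hf) ((X.v D).ne_zero_iff.2 hg)]
  ring

@[simp] lemma ord_one (D : P) : X.ord D 1 = 0 := by
  unfold ord; simp

lemma ord_inv (D : P) (f : F) : X.ord D f⁻¹ = - X.ord D f := by
  unfold ord
  rw [map_inv₀, log_inv]

lemma ord_pow (D : P) (f : F) (n : ℕ) : X.ord D (f ^ n) = n * X.ord D f := by
  unfold ord
  rw [map_pow, log_pow]
  simp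

lemma ord_div (D : P) {f g : F} (hf : f ≠ 0) (hg : g ≠ 0) :
    X.ord D (f / g) = X.ord D f - X.ord D g := by
  rw [div_eq_mul_inv, X.ord_mul D hf (inv_ne_zero hg), X.ord_inv]; ring

lemma ord_nonneg_iff (D : P) {f : F} (hf : f ≠ 0) : 0 ≤ X.ord D f ↔ X.v D f ≤ 1 := by
  unfold ord
  rw [Left.nonneg_neg_iff, ← log_one, log_le_log ((X.v D).ne_zero_iff.2 hf) one_ne_zero]

lemma ord_eq_zero_iff (D : P) {f : F} (hf : f ≠ 0) : X.ord D f = 0 ↔ X.v D f = 1 := by
  constructor
  · intro h
    apply le_antisymm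
    · exact (X.ord_nonneg_iff D hf).1 h.ge
    · have h2 : 0 ≤ X.ord D f⁻¹ := by rw [X.ord_inv, h]; simp
      have h3 := (X.ord_nonneg_iff D (inv_ne_zero hf)).1 h2
      rw [map_inv₀] at h3
      exact (inv_le_one₀ (zero_lt_iff.2 ((X.v D).ne_zero_iff.2 hf))).1 h3
  · intro h
    unfold ord
    rw [h]; simp

lemma ord_supp_finite {f : F} (hf : f ≠ 0) : {D | X.ord D f ≠ 0}.Finite := by
  refine (X.supp_finite f hf).subset fun D hD => ?_
  exact fun h => hD ((X.ord_eq_zero_iff D hf).2 h)

lemma ord_add (D : P) {f g : F} (hf : f ≠ 0) (hg : g ≠ 0) (hfg : f + g ≠ 0) :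
    min (X.ord D f) (X.ord D g) ≤ X.ord D (f + g) := by
  have h := (X.v D).map_add f g
  have hf' := (X.v D).ne_zero_iff.2 hf
  have hg' := (X.v D).ne_zero_iff.2 hg
  have hfg' := (X.v D).ne_zero_iff.2 hfg
  unfold ord
  rcases le_max_iff.1 h with h | h
  · exact le_trans (min_le_left _ _) (neg_le_neg ((log_le_log hfg' hf').2 h))
  · exact le_trans (min_le_right _ _) (neg_le_neg ((log_le_log hfg' hg').2 h))

/-- The null primes. -/
def V : Set P := {D | X.delta D = 0}

lemma sum_ord {f : F} (hf : f ≠ 0) : ∑ᶠ D, (X.ord D f : ℝ) * X.delta D = 0 := by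
  have h := X.sum_delta f hf
  have : (fun D => (X.ord D f : ℝ) * X.delta D) = fun D => -(((log (X.v D f) : ℤ) : ℝ) * X.delta D) := by
    funext D
    unfold ord
    push_cast
    ring
  rw [this, finsum_neg_distrib, h, neg_zero]

/-- Key computation: if a function with a fixed `N` of total degree at most `0` added has no pole
outside the null primes, then it has no zero there either. -/
lemma ord_add_eq_zero_of_nonneg {f : F} (hf : f ≠ 0) (N : P → ℤ)
    (hN : {D | N D ≠ 0}.Finite) (hN0 : ∑ᶠ D, (N D : ℝ) * X.delta D ≤ 0)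
    (h : ∀ D, D ∉ X.V → 0 ≤ X.ord D f + N D) (D : P) (hD : D ∉ X.V) : X.ord D f + N D = 0 := by
  have hs1 : (Function.support fun D => (X.ord D f : ℝ) * X.delta D).Finite := by
    refine (X.ord_supp_finite hf).subset fun D hD => ?_
    intro h0
    apply hD
    simp [h0]
  have hs2 : (Function.support fun D => (N D : ℝ) * X.delta D).Finite := by
    refine hN.subset fun D hD => ?_
    intro h0
    apply hD
    simp [h0]
  have hsum : ∑ᶠ D, (((X.ord D f + N D : ℤ) : ℝ) * X.delta D) ≤ 0 := by
    have : (fun D => (((X.ord D f + N D : ℤ) : ℝ) * X.delta D)) =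
        fun D => (X.ord D f : ℝ) * X.delta D + (N D : ℝ) * X.delta D := by
      funext D; push_cast; ring
    rw [this, finsum_add_distrib hs1 hs2, X.sum_ord hf, zero_add]
    exact hN0
  have hnn : ∀ D, 0 ≤ (((X.ord D f + N D : ℤ) : ℝ) * X.delta D) := by
    intro D
    by_cases hD : D ∈ X.V
    · have : X.delta D = 0 := hD
      rw [this, mul_zero]
    · exact mul_nonneg (by exact_mod_cast h D hD) (X.delta_nonneg D)
  have hs : (Function.support fun D => (((X.ord D f + N D : ℤ) : ℝ) * X.delta D)).Finite := by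
    refine (hs1.union hs2).subset fun D hD => ?_
    by_contra hc
    rw [Set.mem_union, not_or] at hc
    apply hD
    have h1 := Function.notMem_support.1 hc.1
    have h2 := Function.notMem_support.1 hc.2
    simp only at h1 h2 ⊢
    push_cast
    rw [add_mul, h1, h2, add_zero]
  have hzero : (((X.ord D f + N D : ℤ) : ℝ) * X.delta D) = 0 := by
    by_contra hne
    have hpos : 0 < (((X.ord D f + N D : ℤ) : ℝ) * X.delta D) := lt_of_le_of_ne (hnn D) (Ne.symm hne)
    have hle : (((X.ord D f + N D : ℤ) : ℝ) * X.delta D) ≤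
        ∑ᶠ D, (((X.ord D f + N D : ℤ) : ℝ) * X.delta D) :=
      single_le_finsum D hs hnn
    exact absurd (hle.trans hsum) (not_le.2 hpos)
  rcases mul_eq_zero.1 hzero with h0 | h0
  · exact_mod_cast h0
  · exact absurd h0 hD

lemma ord_eq_zero_of_nonneg {f : F} (hf : f ≠ 0) (h : ∀ D, D ∉ X.V → 0 ≤ X.ord D f)
    (D : P) (hD : D ∉ X.V) : X.ord D f = 0 := by
  have := X.ord_add_eq_zero_of_nonneg hf (fun _ => 0) (by simp) (by simp) (by simpa using h) D hD
  simpa using this

/-- The functions whose divisor is supported on the null primes form a field. -/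
noncomputable def KY : IntermediateField k F where
  carrier := {f | ∀ D, D ∉ X.V → X.v D f ≤ 1}
  mul_mem' := by
    intro a b ha hb D hD
    rw [map_mul]
    exact mul_le_one' (ha D hD) (hb D hD)
  add_mem' := by
    intro a b ha hb D hD
    exact ((X.v D).map_add a b).trans (max_le (ha D hD) (hb D hD))
  algebraMap_mem' := by
    intro c D _
    by_cases hc : c = 0
    · subst hc; simp
    · exact (X.v_const D c hc).le
  inv_mem' := by
    intro a ha D hD
    by_cases h0 : a = 0
    · subst h0; simp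
    · have h1 : ∀ D, D ∉ X.V → 0 ≤ X.ord D a := fun D hD => (X.ord_nonneg_iff D h0).2 (ha D hD)
      have h2 := X.ord_eq_zero_of_nonneg h0 h1 D hD
      have h3 := (X.ord_eq_zero_iff D h0).1 h2
      rw [map_inv₀, h3, inv_one]

lemma mem_KY {f : F} : f ∈ X.KY ↔ ∀ D, D ∉ X.V → X.v D f ≤ 1 := Iff.rfl

lemma mem_KY_iff_ord {f : F} (hf : f ≠ 0) : f ∈ X.KY ↔ ∀ D, D ∉ X.V → X.ord D f = 0 := by
  rw [mem_KY]
  constructor
  · intro h
    exact X.ord_eq_zero_of_nonneg hf fun D hD => (X.ord_nonneg_iff D hf).2 (h D hD)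
  · intro h D hD
    exact (X.ord_nonneg_iff D hf).1 (h D hD).ge

/-- `K_Y` is algebraically closed in `F`. -/
theorem KY_algClosed {g : F} (hg : IsAlgebraic X.KY g) : g ∈ X.KY := by
  rw [mem_KY]
  intro D hD
  have hint : IsIntegral X.KY g := hg.isIntegral
  obtain ⟨p, hp, hp0⟩ := hint
  let φ : X.KY →+* (X.v D).integer :=
    { toFun := fun a => ⟨a.1, a.2 D hD⟩
      map_one' := rfl
      map_mul' := fun _ _ => rfl
      map_zero' := rfl
      map_add' := fun _ _ => rfl }
  have : IsIntegral (X.v D).integer g := by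
    refine ⟨p.map φ, hp.map φ, ?_⟩
    rw [Polynomial.eval₂_map]
    exact hp0
  exact (Valuation.integer.integers (X.v D)).mem_of_integral this

/-- Rank one: two functions in the same class of degree `0`, without poles outside the null
primes, differ by an element of `K_Y`. -/
theorem rank_one {f g : F} (hf : f ≠ 0) (hg : g ≠ 0) (N : P → ℤ)
    (hN : {D | N D ≠ 0}.Finite) (hN0 : ∑ᶠ D, (N D : ℝ) * X.delta D ≤ 0)
    (hfN : ∀ D, D ∉ X.V → 0 ≤ X.ord D f + N D) (hgN : ∀ D, D ∉ X.V → 0 ≤ X.ord D g + N D) :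
    f / g ∈ X.KY := by
  rw [X.mem_KY_iff_ord (div_ne_zero hf hg)]
  intro D hD
  have h1 := X.ord_add_eq_zero_of_nonneg hf N hN hN0 hfN D hD
  have h2 := X.ord_add_eq_zero_of_nonneg hg N hN hN0 hgN D hD
  rw [X.ord_div D hf hg]
  linarith

/-- A prime divisor is horizontal if its valuation is trivial on `K_Y`. -/
def Horizontal (D : P) : Prop := ∀ f ∈ X.KY, f ≠ 0 → X.ord D f = 0

/-- If among any `r + 1` prime divisors there is a linear equivalence relation, then there are at
most `r` horizontal null primes. -/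
theorem horizontal_card_le (r : ℕ)
    (hr : ∀ S : Finset P, r < S.card → ∃ f : F, f ≠ 0 ∧ (∃ D ∈ S, X.ord D f ≠ 0) ∧
      ∀ D ∉ S, X.ord D f = 0) (S : Finset P) (hS : ∀ D ∈ S, D ∈ X.V ∧ X.Horizontal D) :
    S.card ≤ r := by
  by_contra hc
  obtain ⟨f, hf, ⟨D, hDS, hD⟩, h⟩ := hr S (not_le.1 hc)
  have hfK : f ∈ X.KY := by
    rw [X.mem_KY_iff_ord hf]
    intro D' hD'
    exact h D' fun hm => hD' (hS D' hm).1
  exact hD ((hS D hDS).2 f hfK hf)

theorem horizontal_finite (r : ℕ)
    (hr : ∀ S : Finset P, r < S.card → ∃ f : F, f ≠ 0 ∧ (∃ D ∈ S, X.ord D f ≠ 0) ∧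
      ∀ D ∉ S, X.ord D f = 0) : {D | D ∈ X.V ∧ X.Horizontal D}.Finite := by
  by_contra hinf
  obtain ⟨S, hS, hc⟩ := Set.Infinite.exists_subset_card_eq hinf (r + 1)
  have := X.horizontal_card_le r hr S (fun D hD => hS hD)
  omega

end DivData

end Vale.Agent.P299.G
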