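import Mathlib.Algebra.Polynomial.Roots
import Mathlib.Algebra.Polynomial.Eval.Defs
import Mathlib.Data.Rat.Defs
import Mathlib.Order.Filter.AtTopBot.Basic
import Mathlib.Order.Filter.Cofinite
import Mathlib.Algebra.Order.Archimedean.Basic

/-!
# Polynomial arguments
-/

namespace Vale.Agent.P299.G

/-- A polynomial with `p(0) ≠ 0` does not vanish at arbitrarily large natural numbers only. -/
lemma exists_eval_ne_zero {p : Polynomial ℚ} (hp : p.eval 0 ≠ 0) (N : ℕ) :
    ∃ K : ℕ, N ≤ K ∧ ∀ k : ℕ, K ≤ k → p.eval (k : ℚ) ≠ 0 := by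
  have hp0 : p ≠ 0 := by
    rintro rfl
    simp at hp
  -- the roots are finite in number
  obtain ⟨B, hB⟩ : ∃ B : ℕ, ∀ x ∈ p.roots.toFinset, x < B := by
    refine Finset.induction_on p.roots.toFinset ⟨0, by simp⟩ ?_
    intro a s _ ih
    obtain ⟨B, hB⟩ := ih
    obtain ⟨C, hC⟩ := exists_nat_gt a
    refine ⟨max B C, fun x hx => ?_⟩
    rcases Finset.mem_insert.1 hx with rfl | hx
    · exact hC.trans_le (by exact_mod_cast le_max_right _ _)
    · exact (hB x hx).trans_le (by exact_mod_cast le_max_left _ _)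
  refine ⟨max N B, le_max_left _ _, fun k hk h0 => ?_⟩
  have : (k : ℚ) ∈ p.roots.toFinset := by
    rw [Multiset.mem_toFinset, Polynomial.mem_roots hp0]
    exact h0
  have h1 := hB _ this
  have h2 : (B : ℚ) ≤ k := by exact_mod_cast (le_max_right N B).trans hk
  exact absurd h1 (not_lt.2 h2)

/-- Step (A).  `H i k` says that the `i`-th cohomology of the `k`-th multiple is nonzero; `h0 k` is
the dimension of the space of sections.  Either some positive multiple has a section, or one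
cohomology group of positive degree is nonzero for arbitrarily large `k`. -/
theorem stepA (n : ℕ) (H : ℕ → ℕ → Prop) (h0 : ℕ → ℕ) (p : Polynomial ℚ)
    (hp : ∀ k, (∀ i, 0 < i → ¬ H i k) → (h0 k : ℚ) = p.eval (k : ℚ))
    (hbig : ∀ i, n < i → ∀ k, ¬ H i k) (h00 : ∀ i, 0 < i → ¬ H i 0) (h01 : h0 0 = 1) :
    (∃ k, 0 < k ∧ h0 k ≠ 0) ∨ ∃ i, 0 < i ∧ i ≤ n ∧ ∀ N, ∃ k, N ≤ k ∧ H i k := by
  by_cases hcase : ∃ i, 0 < i ∧ i ≤ n ∧ ∀ N, ∃ k, N ≤ k ∧ H i k
  · exact Or.inr hcase
  left
  push Not at hcase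
  -- a common bound
  have hB : ∃ B : ℕ, ∀ i, 0 < i → i ≤ n → ∀ k, B ≤ k → ¬ H i k := by
    have : ∀ m ≤ n, ∃ B : ℕ, ∀ i, 0 < i → i ≤ m → ∀ k, B ≤ k → ¬ H i k := by
      intro m
      induction m with
      | zero => intro _; exact ⟨0, fun i h1 h2 => by omega⟩
      | succ m ih =>
        intro hm
        obtain ⟨B, hB⟩ := ih (by omega)
        obtain ⟨C, hC⟩ := hcase (m + 1) (by omega) hm
        refine ⟨max B C, fun i h1 h2 k hk => ?_⟩
        rcases Nat.lt_or_ge i (m + 1) with h | h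
        · exact hB i h1 (by omega) k ((le_max_left _ _).trans hk)
        · have : i = m + 1 := by omega
          subst this
          exact hC k ((le_max_right _ _).trans hk)
    exact this n le_rfl
  obtain ⟨B, hB⟩ := hB
  have hp0 : p.eval 0 = 1 := by
    have := hp 0 h00
    rw [h01] at this
    simpa using this.symm
  obtain ⟨K, hK1, hK2⟩ := exists_eval_ne_zero (p := p) (by rw [hp0]; exact one_ne_zero) (B + 1)
  refine ⟨K, by omega, fun h => ?_⟩
  have h1 : (h0 K : ℚ) = p.eval (K : ℚ) := hp K fun i hi => by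
    rcases Nat.lt_or_ge n i with hin | hin
    · exact hbig i hin K
    · exact hB i hi hin K (by omega)
  rw [h] at h1
  exact hK2 K le_rfl (by rw [← h1]; simp)

/-- Step (E5).  If `h j` is a polynomial in `j` with value `1` at `0`, then `h j ≠ 0` for some
`j ≥ 1`. -/
theorem stepE (h : ℕ → ℕ) (p : Polynomial ℚ) (hp : ∀ j, (h j : ℚ) = p.eval (j : ℚ))
    (h1 : h 0 = 1) : ∃ j, 0 < j ∧ h j ≠ 0 := by
  have hp0 : p.eval 0 = 1 := by
    have := hp 0
    rw [h1] at this
    simpa using this.symm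
  obtain ⟨K, hK1, hK2⟩ := exists_eval_ne_zero (p := p) (by rw [hp0]; exact one_ne_zero) 1
  refine ⟨K, by omega, fun h2 => ?_⟩
  have := hp K
  rw [h2] at this
  exact hK2 K le_rfl (by rw [← this]; simp)

end Vale.Agent.P299.G
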