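import Mathlib.LinearAlgebra.Multilinear.Basic
import Mathlib.Data.Int.Order.Basic
import Mathlib.Algebra.Order.Group.Int
import Mathlib.Tactic.Linarith
import Mathlib.Tactic.Ring

/-!
# Comparison of intersection numbers with respect to two nef classes

`I` is a multilinear form on an abelian group of classes with values in `ℤ`.  It is nonnegative on
`n`-tuples with one effective and `n - 1` nef entries.  If `C a - h` is effective, then replacing
`h` by `a` in a nef tuple increases the number, up to a power of `C`.
-/

namespace Vale.Agent.P299.G

variable {A : Type*} [AddCommGroup A] {n : ℕ} (I : MultilinearMap ℤ (fun _ : Fin n => A) ℤ)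
  (Nef Eff : A → Prop)

/-- Replace the entries with index in `s` by `a`. -/
def repl [DecidableEq (Fin n)] (v : Fin n → A) (s : Finset (Fin n)) (a : A) : Fin n → A :=
  fun i => if i ∈ s then a else v i

theorem transfer_le
    (hpos : ∀ (v : Fin n → A) (i : Fin n), Eff (v i) → (∀ j, j ≠ i → Nef (v j)) → 0 ≤ I v)
    {a h : A} (ha : Nef a) {C : ℕ} (hC : Eff ((C : ℤ) • a - h))
    (v : Fin n → A) (hv : ∀ i, Nef (v i)) (s : Finset (Fin n)) (hs : ∀ i ∈ s, v i = h) :
    I v ≤ (C : ℤ) ^ s.card * I (repl v s a) := by
  induction s using Finset.induction_on with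
  | empty =>
    have : repl v ∅ a = v := by
      funext i; simp [repl]
    rw [this]; simp
  | insert i s hi ih =>
    have ih' := ih fun j hj => hs j (Finset.mem_insert_of_mem hj)
    set w := repl v s a with hw
    have hwi : w i = h := by
      rw [hw]
      simp only [repl, hi, if_false]
      exact hs i (Finset.mem_insert_self _ _)
    have hwn : ∀ j, Nef (w j) := by
      intro j
      rw [hw]
      unfold repl
      split_ifs
      · exact ha
      · exact hv j
    have hupd : repl v (insert i s) a = Function.update w i a := by
      funext j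
      by_cases hj : j = i
      · subst hj
        simp [repl]
      · simp [repl, hw, Finset.mem_insert, hj]
    have h1 : I (Function.update w i ((C : ℤ) • a - h)) =
        C * I (Function.update w i a) - I w := by
      rw [I.map_update_sub, I.map_update_smul]
      congr 1
      conv_rhs => rw [← Function.update_eq_self i w, hwi]
    have h2 : 0 ≤ I (Function.update w i ((C : ℤ) • a - h)) := by
      refine hpos _ i ?_ ?_
      · rw [Function.update_self]; exact hC
      · intro j hj
        rw [Function.update_of_ne hj]
        exact hwn j
    rw [h1] at h2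
    rw [Finset.card_insert_of_notMem hi, hupd, pow_succ]
    have h3 : I w ≤ C * I (Function.update w i a) := by linarith
    calc I v ≤ (C : ℤ) ^ s.card * I w := ih'
      _ ≤ (C : ℤ) ^ s.card * (C * I (Function.update w i a)) :=
          mul_le_mul_of_nonneg_left h3 (by positivity)
      _ = (C : ℤ) ^ s.card * C * I (Function.update w i a) := by ring

/-- If `a` kills a nef tuple, so does every `h` dominated by a multiple of `a`. -/
theorem transfer_eq_zero
    (hpos : ∀ (v : Fin n → A) (i : Fin n), Eff (v i) → (∀ j, j ≠ i → Nef (v j)) → 0 ≤ I v)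
    (hnef : ∀ v : Fin n → A, (∀ i, Nef (v i)) → 0 ≤ I v)
    {a h : A} (ha : Nef a) {C : ℕ} (hC : Eff ((C : ℤ) • a - h))
    (v : Fin n → A) (hv : ∀ i, Nef (v i)) (s : Finset (Fin n)) (hs : ∀ i ∈ s, v i = h)
    (h0 : I (repl v s a) = 0) : I v = 0 := by
  have h1 := transfer_le I Nef Eff hpos ha hC v hv s hs
  rw [h0, mul_zero] at h1
  exact le_antisymm h1 (hnef v hv)

end Vale.Agent.P299.G
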