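import Vale.Agent.P299.G.Inter
import Vale.Agent.P299.G.Transfer
import Mathlib.Tactic.Module

/-!
# Step (D): `q L' - B` is pseudo-effective

Abstract form, on the group `A` of divisors (or classes) of the model `Z'`: `I` the intersection
form, `Nef`, `Eff` (effective), `Sec D` (`H⁰(D) ≠ 0`), `a = μ^* H`, `H'` ample on `Z'`.
-/

open Finset

namespace Vale.Agent.P299.G

variable {A : Type*} [AddCommGroup A]

omit [AddCommGroup A] in
lemma repl_mix {n : ℕ} (L H a : A) (j : ℕ) :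
    repl (mix L H j : Fin n → A) (univ.filter fun i : Fin n => ¬ i.val < j) a = mix L a j := by
  funext i
  unfold repl mix
  by_cases h : i.val < j
  · simp [h]
  · simp [h]

omit [AddCommGroup A] in
lemma repl_cons_mix {m : ℕ} (B L H a : A) (j : ℕ) :
    repl (Fin.cons B (mix L H j : Fin m → A) : Fin (m + 1) → A)
      ((univ.filter fun i : Fin m => ¬ i.val < j).map (Fin.succEmb m)) a =
      Fin.cons B (mix L a j) := by
  funext i
  refine Fin.cases ?_ (fun i => ?_) i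
  · have : (0 : Fin (m + 1)) ∉ (univ.filter fun i : Fin m => ¬ i.val < j).map (Fin.succEmb m) := by
      rw [Finset.mem_map]
      rintro ⟨x, _, hx⟩
      exact Fin.succ_ne_zero _ hx
    rw [repl, if_neg this, Fin.cons_zero, Fin.cons_zero]
  · unfold repl
    by_cases h : i.val < j
    · have : i.succ ∉ (univ.filter fun i : Fin m => ¬ i.val < j).map (Fin.succEmb m) := by
        rw [Finset.mem_map]
        rintro ⟨x, hx, hx2⟩
        rw [Finset.mem_filter] at hx
        have : x = i := Fin.succ_injective _ hx2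
        rw [this] at hx
        exact hx.2 h
      rw [if_neg this]
      simp [mix, h]
    · have : i.succ ∈ (univ.filter fun i : Fin m => ¬ i.val < j).map (Fin.succEmb m) := by
        rw [Finset.mem_map]
        exact ⟨i, by rw [Finset.mem_filter]; exact ⟨Finset.mem_univ _, h⟩, rfl⟩
      rw [if_pos this]
      simp [mix, h]

/-- Linearity of `B ↦ I (B, v)` in sums. -/
lemma cons_sum {m : ℕ} (I : MultilinearMap ℤ (fun _ : Fin (m + 1) => A) ℤ) (v : Fin m → A)
    {ι : Type*} (s : Finset ι) (c : ι → ℤ) (x : ι → A) (P : A) :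
    I (Fin.cons (P + ∑ i ∈ s, c i • x i) v) =
      I (Fin.cons P v) + ∑ i ∈ s, c i * I (Fin.cons (x i) v) := by
  have h : ∀ B : A, I (Fin.cons B v) = (I.curryLeft B) v := fun B => by
    rw [MultilinearMap.curryLeft_apply]
  rw [h, map_add, map_sum, MultilinearMap.add_apply, MultilinearMap.sum_apply, ← h P]
  congr 1
  refine Finset.sum_congr rfl fun i _ => ?_
  rw [map_smul, MultilinearMap.smul_apply, ← h, smul_eq_mul]

section

variable {m : ℕ} {I : MultilinearMap ℤ (fun _ : Fin (m + 1) => A) ℤ}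
  {Nef Eff : A → Prop}
  (hpos : ∀ (v : Fin (m + 1) → A) (i : Fin (m + 1)),
    Eff (v i) → (∀ j, j ≠ i → Nef (v j)) → 0 ≤ I v)
  (hnef : ∀ v : Fin (m + 1) → A, (∀ i, Nef (v i)) → 0 ≤ I v)
  {L H' a B : A} (hL : Nef L) (hH' : Nef H') (ha : Nef a)
  {C : ℕ} (hC : Eff ((C : ℤ) • a - H'))

include hpos hnef hL hH' ha hC

/-- Vanishing of `I (L^j, μ^*H^(n-j))` implies vanishing of `I (L^j, H'^(n-j))`. -/
theorem mix_eq_zero_of (j : ℕ) (h0 : I (mix L a j) = 0) : I (mix L H' j) = 0 := by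
  refine transfer_eq_zero I Nef Eff hpos hnef ha hC (mix L H' j) (fun i => ?_)
    (univ.filter fun i : Fin (m + 1) => ¬ i.val < j) (fun i hi => ?_) ?_
  · unfold mix; split_ifs
    · exact hL
    · exact hH'
  · rw [Finset.mem_filter] at hi
    simp [mix, hi.2]
  · rw [repl_mix]; exact h0

/-- Vanishing of `I (B, L^j, μ^*H^(m-j))` implies vanishing of `I (B, L^j, H'^(m-j))`. -/
theorem cons_mix_eq_zero_of (hB : Nef B) (j : ℕ) (h0 : I (Fin.cons B (mix L a j)) = 0) :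
    I (Fin.cons B (mix L H' j)) = 0 := by
  refine transfer_eq_zero I Nef Eff hpos hnef ha hC (Fin.cons B (mix L H' j)) (fun i => ?_)
    ((univ.filter fun i : Fin m => ¬ i.val < j).map (Fin.succEmb m)) (fun i hi => ?_) ?_
  · refine Fin.cases ?_ (fun i => ?_) i
    · exact hB
    · rw [Fin.cons_succ]
      unfold mix; split_ifs
      · exact hL
      · exact hH'
  · rw [Finset.mem_map] at hi
    obtain ⟨x, hx, rfl⟩ := hi
    rw [Finset.mem_filter] at hx
    simp [mix, hx.2]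
  · rw [repl_cons_mix]; exact h0

omit hnef hH' hC ha in
/-- Positivity of `I (L^j, μ^*H^(n-j))` implies positivity of `I (L^j, H'^(n-j))`. -/
theorem mix_pos_of (ha : Nef a) (hH' : Nef H') {C' : ℕ} (hC' : Eff ((C' : ℤ) • H' - a)) (j : ℕ)
    (h0 : 0 < I (mix L a j)) :
    0 < I (mix L H' j) := by
  have h1 := transfer_le I Nef Eff hpos hH' hC' (mix L a j) (fun i => by
      unfold mix; split_ifs
      · exact hL
      · exact ha)
    (univ.filter fun i : Fin (m + 1) => ¬ i.val < j) (fun i hi => by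
      rw [Finset.mem_filter] at hi
      simp [mix, hi.2])
  rw [repl_mix] at h1
  by_contra hc
  push Not at hc
  have h2 : (0 : ℤ) ≤ (C' : ℤ) ^ (univ.filter fun i : Fin (m + 1) => ¬ i.val < j).card := by
    positivity
  nlinarith [mul_nonneg h2 (neg_nonneg.2 hc)]

/-- **Step (D)**, numerical part: for some `q > 0` the inequality of Siu's criterion holds for
`q (bL + aH')` and `bB`, all `0 < a ≤ b`. -/
theorem stepD_numerical (hI : Symm I)
    (hdom : ∀ x : A, ∃ C : ℕ, Nef ((C : ℤ) • H' - x) ∧ Nef ((C : ℤ) • H' + x))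
    {C' : ℕ} (hC' : Eff ((C' : ℤ) • H' - a)) {ν : ℕ} (hν : ν ≤ m)
    (hνpos : 0 < I (mix L a ν)) (hz : ∀ j, ν < j → j ≤ m + 1 → I (mix L a j) = 0)
    (hB : Nef B) (hB0 : I (Fin.cons B (mix L a ν)) = 0) :
    ∃ q : ℕ, 0 < q ∧ ∀ s t : ℕ, 0 < s → s ≤ t →
      ((m + 1 : ℕ) : ℤ) * I (Fin.cons ((t : ℤ) • B)
        (fun _ => (q : ℤ) • ((t : ℤ) • L + (s : ℤ) • H'))) <
      I (fun _ => (q : ℤ) • ((t : ℤ) • L + (s : ℤ) • H')) :=
  exists_siu' hI hL hH' hnef hdom
    (fun j hj hjn => mix_eq_zero_of hpos hnef hL hH' ha hC j (hz j hj hjn)) hν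
    (mix_pos_of hpos hL ha hH' hC' ν hνpos)
    (cons_mix_eq_zero_of hpos hnef hL hH' ha hC hB ν hB0).le

/-- **Step (D)**: `q L - B` is pseudo-effective for some `q > 0`. -/
theorem stepD (hI : Symm I)
    (hdom : ∀ x : A, ∃ C : ℕ, Nef ((C : ℤ) • H' - x) ∧ Nef ((C : ℤ) • H' + x))
    {C' : ℕ} (hC' : Eff ((C' : ℤ) • H' - a)) {ν : ℕ} (hν : ν ≤ m)
    (hνpos : 0 < I (mix L a ν)) (hz : ∀ j, ν < j → j ≤ m + 1 → I (mix L a j) = 0)
    (hB : Nef B) (hB0 : I (Fin.cons B (mix L a ν)) = 0)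
    {Sec Ample : A → Prop} (hSec : ∀ x y, Sec x → Sec y → Sec (x + y))
    (hNefSmul : ∀ (k : ℕ) x, Nef x → Nef ((k : ℤ) • x))
    (hNefAdd : ∀ x y, Nef x → Nef y → Nef (x + y))
    (hAmple : ∀ x, Ample x → ∃ k : ℕ, 0 < k ∧ Sec ((k : ℤ) • x))
    (hAmpleDom : ∀ x, Ample x → ∃ N : ℕ, 0 < N ∧ Sec ((N : ℤ) • x - H'))
    (hSiu : ∀ x y : A, Nef x → Nef y →
      ((m + 1 : ℕ) : ℤ) * I (Fin.cons y (fun _ => x)) < I (fun _ => x) →
      ∃ k : ℕ, 0 < k ∧ Sec ((k : ℤ) • (x - y))) :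
    ∃ q : ℕ, 0 < q ∧ ∀ x, Ample x → ∀ k : ℕ, ∃ j : ℕ, 0 < j ∧
      Sec ((j : ℤ) • ((k : ℤ) • ((q : ℤ) • L - B) + x)) := by
  obtain ⟨q, hq, hS⟩ := stepD_numerical hpos hnef hL hH' ha hC hI hdom hC' hν hνpos hz hB hB0
  have hSecMul : ∀ (k : ℕ) x, 0 < k → Sec x → Sec ((k : ℤ) • x) := by
    intro k x hk hx
    induction k with
    | zero => omega
    | succ k ih =>
      rcases Nat.eq_zero_or_pos k with h | h
      · subst h; simpa using hx
      · have : ((k + 1 : ℕ) : ℤ) • x = (k : ℤ) • x + x := by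
          push_cast; rw [add_smul, one_smul]
        rw [this]
        exact hSec _ _ (ih h) hx
  refine ⟨q, hq, fun x hx k => ?_⟩
  rcases Nat.eq_zero_or_pos k with hk | hk
  · subst hk
    obtain ⟨j, hj, h⟩ := hAmple x hx
    exact ⟨j, hj, by simpa using h⟩
  · obtain ⟨N, hN, hNs⟩ := hAmpleDom x hx
    set t : ℕ := k * q * N with ht
    have ht0 : 0 < t := by positivity
    obtain ⟨i, hi, hsec⟩ := hSiu ((q : ℤ) • ((t : ℤ) • L + ((1 : ℕ) : ℤ) • H')) ((t : ℤ) • B)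
      (hNefSmul _ _ (hNefAdd _ _ (hNefSmul _ _ hL) (hNefSmul _ _ hH'))) (hNefSmul _ _ hB)
      (hS 1 t one_pos ht0)
    refine ⟨i * t, by positivity, ?_⟩
    have e : ((i * t : ℕ) : ℤ) • ((k : ℤ) • ((q : ℤ) • L - B) + x) =
        (k : ℤ) • ((i : ℤ) • ((q : ℤ) • ((t : ℤ) • L + ((1 : ℕ) : ℤ) • H') - (t : ℤ) • B)) +
          ((i * k * q : ℕ) : ℤ) • ((N : ℤ) • x - H') := by
      rw [ht]
      push_cast
      module
    rw [e]
    exact hSec _ _ (hSecMul _ _ hk hsec) (hSecMul _ _ (by positivity) hNs)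

end

end Vale.Agent.P299.G
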